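import Vale.Agent.P040.Even.Sub

/-!
# Consequences of Zarankiewicz's conjecture for one even parameter (helper377)
-/

set_option autoImplicit false

namespace Vale.Agent.P040.Even

open Set

/-- Zarankiewicz's lower bound when the first class is even -/
def EvenB : Prop := ∀ m n : ℕ, Even m → ∀ D : Drawing (K m n), zar m n ≤ D.crossings

theorem zar_comm (m n : ℕ) : zar m n = zar n m := by
  unfold zar
  ring

/-- the other class -/
theorem even_right (hE : EvenB) {m n : ℕ} (hn : Even n) (D : Drawing (K m n)) :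
    zar m n ≤ D.crossings := by
  have h := hE n m hn (D.sub (H := K n m) Sum.swap (Sum.swap_leftInverse.injective) (by
    rintro (i | i) (j | j) h <;> simp at h ⊢))
  rw [zar_comm]
  exact h.trans (D.sub_crossings_le _ _ _)

theorem even_or (hE : EvenB) {m n : ℕ} (h : Even m ∨ Even n) (D : Drawing (K m n)) :
    zar m n ≤ D.crossings := by
  rcases h with h | h
  · exact hE m n h D
  · exact even_right hE h D

/-! ### both parameters odd: deleting a vertex -/

theorem delete_vertex {m n B : ℕ} (hB : ∀ D : Drawing (K m n), B ≤ D.crossings)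
    (D : Drawing (K (m + 1) n)) : (m + 1) * B ≤ (m - 1) * D.crossings := by
  classical
  obtain ⟨D', h1, h2⟩ := D.uncross_gen
  have hD' : Good D' := h2
  have key := Drawing.sum_sub_le (H := K m n) D' hD'
    (fun x : Fin (m + 1) => Sum.map (Fin.succAbove x) (id : Fin n → Fin n))
    (fun x => Function.Injective.sumMap Fin.succAbove_right_injective Function.injective_id)
    (by
      intro x u v huv
      rcases u with i | i <;> rcases v with j | j <;> simp at huv ⊢)
    (m - 1) (by
      intro a b c d hab hcd hac had hbc hbd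
      -- the deleted vertex is neither of the two ends in the first class
      have hx : ∃ x1 x2 : Fin (m + 1), x1 ≠ x2 ∧ ∀ x : Fin (m + 1),
          ((∃ u v, (K m n).Adj u v ∧ Sum.map (Fin.succAbove x) (id : Fin n → Fin n) u = a ∧
            Sum.map (Fin.succAbove x) (id : Fin n → Fin n) v = b) ∧
          (∃ u v, (K m n).Adj u v ∧ Sum.map (Fin.succAbove x) (id : Fin n → Fin n) u = c ∧
            Sum.map (Fin.succAbove x) (id : Fin n → Fin n) v = d)) → x ≠ x1 ∧ x ≠ x2 := by
        have hne : ∀ (x y : Fin (m + 1)) (u : Fin m ⊕ Fin n),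
            Sum.map (Fin.succAbove x) (id : Fin n → Fin n) u = Sum.inl y → x ≠ y := by
          intro x y u hu hxy
          rcases u with i | i
          · simp only [Sum.map_inl, Sum.inl.injEq] at hu
            exact Fin.succAbove_ne x i (hu.trans hxy.symm)
          · simp at hu
        rcases a with x1 | b1 <;> rcases b with y1 | c1
        · simp at hab
        · rcases c with x2 | b2 <;> rcases d with y2 | c2
          · simp at hcd
          · refine ⟨x1, x2, fun h0 => hac (by rw [h0]), ?_⟩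
            rintro x ⟨⟨u, v, -, hu, hv⟩, ⟨u', v', -, hu', hv'⟩⟩
            exact ⟨hne x x1 u hu, hne x x2 u' hu'⟩
          · refine ⟨x1, y2, fun h0 => had (by rw [h0]), ?_⟩
            rintro x ⟨⟨u, v, -, hu, hv⟩, ⟨u', v', -, hu', hv'⟩⟩
            exact ⟨hne x x1 u hu, hne x y2 v' hv'⟩
          · simp at hcd
        · rcases c with x2 | b2 <;> rcases d with y2 | c2
          · simp at hcd
          · refine ⟨y1, x2, fun h0 => hbc (by rw [h0]), ?_⟩
            rintro x ⟨⟨u, v, -, hu, hv⟩, ⟨u', v', -, hu', hv'⟩⟩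
            exact ⟨hne x y1 v hv, hne x x2 u' hu'⟩
          · refine ⟨y1, y2, fun h0 => hbd (by rw [h0]), ?_⟩
            rintro x ⟨⟨u, v, -, hu, hv⟩, ⟨u', v', -, hu', hv'⟩⟩
            exact ⟨hne x y1 v hv, hne x y2 v' hv'⟩
          · simp at hcd
        · simp at hab
      obtain ⟨x1, x2, hne, hx⟩ := hx
      calc _ ≤ ((Finset.univ \ {x1, x2} : Finset (Fin (m + 1))) : Set (Fin (m + 1))).ncard := by
            refine Set.ncard_le_ncard ?_ (Set.toFinite _)
            intro x hxm
            have := hx x hxm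
            simp [this.1, this.2]
        _ = m - 1 := by
            rw [Set.ncard_coe_finset, Finset.card_sdiff_of_subset (Finset.subset_univ _),
              Finset.card_pair hne, Finset.card_univ, Fintype.card_fin]
            omega)
  calc (m + 1) * B = ∑ _x : Fin (m + 1), B := by simp
    _ ≤ _ := Finset.sum_le_sum fun x _ => hB _
    _ ≤ _ := key
    _ ≤ (m - 1) * D.crossings := Nat.mul_le_mul_left _ h1

/-- The bound for an odd first class. -/
theorem odd_bound (hE : EvenB) {m n : ℕ} (hm : Odd m) (D : Drawing (K m n)) :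
    m * zar (m - 1) n ≤ (m - 2) * D.crossings := by
  obtain ⟨r, hr⟩ := hm
  subst hr
  have h := delete_vertex (m := 2 * r) (n := n) (hE (2 * r) n ⟨r, by ring⟩) D
  have e : 2 * r + 1 - 2 = 2 * r - 1 := by omega
  rw [e]
  simpa using h

/-- The bound for all `m ≥ 3`, in the form of a quotient. -/
theorem all_bound (hE : EvenB) {m n : ℕ} (hm : 3 ≤ m) (D : Drawing (K m n)) :
    (1 - 2 / (((m : ℝ) - 1) * (m - 2))) * (zar m n : ℝ) ≤ D.crossings := by
  have hm' : (3 : ℝ) ≤ m := by exact_mod_cast hm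
  have hpos : 0 < ((m : ℝ) - 1) * (m - 2) := by
    apply mul_pos <;> linarith
  rcases Nat.even_or_odd m with he | ho
  · have h1 : ((zar m n : ℕ) : ℝ) ≤ D.crossings := by exact_mod_cast hE m n he D
    have h2 : (1 - 2 / (((m : ℝ) - 1) * (m - 2))) ≤ 1 := by
      have : 0 ≤ 2 / (((m : ℝ) - 1) * (m - 2)) := by positivity
      linarith
    calc (1 - 2 / (((m : ℝ) - 1) * (m - 2))) * (zar m n : ℝ) ≤ 1 * (zar m n : ℝ) :=
          mul_le_mul_of_nonneg_right h2 (Nat.cast_nonneg _)
      _ ≤ _ := by rw [one_mul]; exact h1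
  · have h1 := odd_bound hE ho D
    obtain ⟨r, hr⟩ := ho
    have hr1 : 1 ≤ r := by omega
    obtain ⟨q, rfl⟩ : ∃ q, r = q + 1 := ⟨r - 1, by omega⟩
    subst hr
    have z1 : zar (2 * (q + 1) + 1 - 1) n = (q + 1) * q * (n / 2 * ((n - 1) / 2)) := by
      unfold zar
      have : (2 * (q + 1) + 1 - 1) / 2 = q + 1 := by omega
      rw [this]
      have : (2 * (q + 1) + 1 - 1 - 1) / 2 = q := by omega
      rw [this]
    have z2 : zar (2 * (q + 1) + 1) n = (q + 1) * (q + 1) * (n / 2 * ((n - 1) / 2)) := by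
      unfold zar
      have : (2 * (q + 1) + 1) / 2 = q + 1 := by omega
      rw [this]
      have : (2 * (q + 1) + 1 - 1) / 2 = q + 1 := by omega
      rw [this]
    rw [z1] at h1
    have e1 : 2 * (q + 1) + 1 - 2 = 2 * q + 1 := by omega
    rw [e1] at h1
    have h2 : ((2 * (q + 1) + 1 : ℕ) : ℝ) * ((((q + 1) * q * (n / 2 * ((n - 1) / 2)) : ℕ)) : ℝ) ≤
        ((2 * q + 1 : ℕ) : ℝ) * D.crossings := by exact_mod_cast h1
    rw [z2]
    set d : ℕ := n / 2 * ((n - 1) / 2) with hd
    push_cast at h2 ⊢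
    have hq : (0:ℝ) < 2 * q + 1 := by positivity
    have e2 : (1 - 2 / ((2 * ((q : ℝ) + 1) + 1 - 1) * (2 * (q + 1) + 1 - 2))) *
        ((q + 1) * (q + 1) * (d : ℝ)) = ((2 * (q + 1) + 1) * ((q + 1) * q * (d : ℝ))) / (2 * q + 1) := by
      have : (2 * ((q : ℝ) + 1) + 1 - 2) = 2 * q + 1 := by ring
      rw [this]
      have h3 : (2 * ((q : ℝ) + 1) + 1 - 1) = 2 * (q + 1) := by ring
      rw [h3]
      have h4 : ((q : ℝ) + 1) ≠ 0 := by positivity
      field_simp
      ring
    rw [e2, div_le_iff₀ hq]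
    linarith

/-- **Asymptotic Zarankiewicz**: uniform in the smaller parameter. -/
theorem zar_lim (hE : EvenB) (ε : ℝ) (hε : 0 < ε) : ∃ N : ℕ, ∀ m n : ℕ, N ≤ max m n →
    ∀ D : Drawing (K m n), (1 - ε) * (zar m n : ℝ) ≤ D.crossings := by
  refine ⟨⌈2 / ε⌉₊ + 3, ?_⟩
  have main : ∀ m n : ℕ, ⌈2 / ε⌉₊ + 3 ≤ m → ∀ D : Drawing (K m n),
      (1 - ε) * (zar m n : ℝ) ≤ D.crossings := by
    intro m n hm D
    have h1 := all_bound hE (m := m) (by omega) D
    refine le_trans (mul_le_mul_of_nonneg_right ?_ (Nat.cast_nonneg _)) h1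
    have hm' : ((⌈2 / ε⌉₊ + 3 : ℕ) : ℝ) ≤ m := by exact_mod_cast hm
    push_cast at hm'
    have h2 := Nat.le_ceil (2 / ε)
    have h3 : 2 / ε ≤ (m : ℝ) - 2 := by linarith
    have h5 : 0 < 2 / ε := by positivity
    have h4 : (1 : ℝ) ≤ m - 1 := by linarith
    have h6 : 2 / (((m : ℝ) - 1) * (m - 2)) ≤ ε := by
      rw [div_le_iff₀ (mul_pos (by linarith) (by linarith))]
      rw [div_le_iff₀ hε] at h3
      have h7 : 0 ≤ ((m : ℝ) - 2) * ε := by nlinarith
      nlinarith
    linarith
  intro m n hmn D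
  rcases le_total m n with h | h
  · rw [max_eq_right h] at hmn
    have h1 := main n m hmn (D.sub (H := K n m) Sum.swap (Sum.swap_leftInverse.injective) (by
      rintro (i | i) (j | j) h <;> simp at h ⊢))
    rw [zar_comm]
    refine h1.trans ?_
    exact_mod_cast D.sub_crossings_le _ _ _
  · rw [max_eq_left h] at hmn
    exact main m n hmn D

end Vale.Agent.P040.Even
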