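import Vale.Agent.P040.Even.Top

/-!
# Zarankiewicz for all `m`, `n` from the even and the odd case (helper377)
-/

set_option autoImplicit false

namespace Vale.Agent.P040.Even

open Set Filter Topology

/-- both parameters odd -/
def OddB : Prop := ∀ m n : ℕ, Odd m → Odd n → ∀ D : Drawing (K m n), zar m n ≤ D.crossings

theorem all_of (hE : EvenB) (hO : OddB) (m n : ℕ) (D : Drawing (K m n)) : zar m n ≤ D.crossings := by
  rcases Nat.even_or_odd m with hm | hm
  · exact hE m n hm D
  · rcases Nat.even_or_odd n with hn | hn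
    · exact even_right hE hn D
    · exact hO m n hm hn D

/-- **Zarankiewicz's conjecture**, all `m`, `n`. -/
theorem least_all (hE : EvenB) (hO : OddB) (m n : ℕ) :
    IsLeast {c | ∃ D : Drawing (K m n), D.crossings = c} (zar m n) := by
  obtain ⟨D, hD⟩ := exists_zar m n
  refine ⟨⟨D, le_antisymm hD (all_of hE hO m n D)⟩, ?_⟩
  rintro _ ⟨D', rfl⟩
  exact all_of hE hO m n D'

theorem cr_eq_all (hE : EvenB) (hO : OddB) (m n : ℕ) : cr (K m n) = zar m n :=
  (least_all hE hO m n).csInf_eq

/-- The value for odd parameters. -/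
theorem zar_odd {g h : ℕ} : zar (2 * h + 1) (2 * g + 1) = h * h * (g * g) := by
  unfold zar
  have h1 : (2 * h + 1) / 2 = h := by omega
  have h2 : (2 * h + 1 - 1) / 2 = h := by omega
  have h3 : (2 * g + 1) / 2 = g := by omega
  have h4 : (2 * g + 1 - 1) / 2 = g := by omega
  rw [h1, h2, h3, h4]
  try ring

end Vale.Agent.P040.Even
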