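import Vale.Agent.P040.Even.Cor
import Mathlib.Data.Nat.Choose.Central
import Mathlib.Data.Finset.Sort

/-!
# The asymptotic Harary–Hill bound (helper377)
-/

set_option autoImplicit false

namespace Vale.Agent.P040.Even

open Set

/-- Harary–Hill's number (the product is divisible by four) -/
def hill (n : ℕ) : ℕ := (n / 2) * ((n - 1) / 2) * ((n - 2) / 2) * ((n - 3) / 2) / 4

section part

variable {p : ℕ}

/-- the balanced bipartitions -/
abbrev Part (p : ℕ) : Type := {S : Finset (Fin (2 * p)) // S.card = p}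

theorem compl_card (S : Part p) : (S.1ᶜ).card = p := by
  rw [Finset.card_compl, S.2, Fintype.card_fin]
  omega

/-- the embedding of the two classes -/
noncomputable def emb (S : Part p) : Fin p ⊕ Fin p → Fin (2 * p) :=
  Sum.elim (S.1.orderEmbOfFin S.2) (S.1ᶜ.orderEmbOfFin (compl_card S))

theorem emb_inj (S : Part p) : Function.Injective (emb S) := by
  apply Function.Injective.sumElim
  · exact (S.1.orderEmbOfFin S.2).injective
  · exact (S.1ᶜ.orderEmbOfFin (compl_card S)).injective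
  · intro i j h
    have h1 := S.1.orderEmbOfFin_mem S.2 i
    have h2 := S.1ᶜ.orderEmbOfFin_mem (compl_card S) j
    rw [h] at h1
    exact (Finset.mem_compl.1 h2) h1

theorem emb_adj (S : Part p) (u v : Fin p ⊕ Fin p) (h : (K p p).Adj u v) :
    (emb S u ∈ S.1 ∧ emb S v ∉ S.1) ∨ (emb S u ∉ S.1 ∧ emb S v ∈ S.1) := by
  rcases u with i | i <;> rcases v with j | j
  · simp at h
  · left
    exact ⟨S.1.orderEmbOfFin_mem S.2 i,
      Finset.mem_compl.1 (S.1ᶜ.orderEmbOfFin_mem (compl_card S) j)⟩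
  · right
    exact ⟨Finset.mem_compl.1 (S.1ᶜ.orderEmbOfFin_mem (compl_card S) i),
      S.1.orderEmbOfFin_mem S.2 j⟩
  · simp at h

/-- the sets containing `a`, `c` and not containing `b`, `d` -/
theorem count_aux (a b c d : Fin (2 * p)) (hab : a ≠ b) (hac : a ≠ c) (had : a ≠ d)
    (hbc : b ≠ c) (hbd : b ≠ d) (hcd : c ≠ d) :
    (Finset.univ.filter fun S : Part p => a ∈ S.1 ∧ c ∈ S.1 ∧ b ∉ S.1 ∧ d ∉ S.1).card ≤
      (2 * p - 4).choose (p - 2) := by
  classical
  set U : Finset (Fin (2 * p)) := Finset.univ \ {a, b, c, d} with hU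
  have hUc : U.card = 2 * p - 4 := by
    rw [hU, Finset.card_sdiff_of_subset (Finset.subset_univ _), Finset.card_univ, Fintype.card_fin]
    congr 1
    rw [Finset.card_insert_of_notMem (by simp [hab, hac, had]),
      Finset.card_insert_of_notMem (by simp [hbc, hbd]),
      Finset.card_insert_of_notMem (by simp [hcd]), Finset.card_singleton]
  rw [← hUc, ← Finset.card_powersetCard]
  refine Finset.card_le_card_of_injOn (fun S => S.1 \ {a, c}) ?_ ?_
  · intro S hS
    simp only [Finset.coe_filter, Finset.mem_univ, true_and, Set.mem_ofPred_eq] at hS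
    rw [Finset.mem_coe, Finset.mem_powersetCard]
    constructor
    · intro x hx
      rw [Finset.mem_sdiff] at hx
      rw [hU, Finset.mem_sdiff]
      refine ⟨Finset.mem_univ _, ?_⟩
      simp only [Finset.mem_insert, Finset.mem_singleton, not_or] at hx ⊢
      exact ⟨hx.2.1, fun h => hS.2.2.1 (h ▸ hx.1), hx.2.2, fun h => hS.2.2.2 (h ▸ hx.1)⟩
    · rw [Finset.card_sdiff_of_subset, S.2, Finset.card_pair hac]
      intro x hx
      simp only [Finset.mem_insert, Finset.mem_singleton] at hx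
      rcases hx with rfl | rfl
      · exact hS.1
      · exact hS.2.1
  · intro S hS S' hS' h
    simp only [Finset.coe_filter, Finset.mem_univ, true_and, Set.mem_ofPred_eq] at hS hS'
    apply Subtype.ext
    ext x
    have hx := Finset.ext_iff.1 h x
    simp only [Finset.mem_sdiff, Finset.mem_insert, Finset.mem_singleton, not_or] at hx
    by_cases h1 : x = a
    · rw [h1]; exact ⟨fun _ => hS'.1, fun _ => hS.1⟩
    by_cases h2 : x = c
    · rw [h2]; exact ⟨fun _ => hS'.2.1, fun _ => hS.2.1⟩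
    simpa [h1, h2] using hx

/-- the parts separating `a`, `b` and `c`, `d` in a given way -/
def sepF (a b c d : Fin (2 * p)) : Finset (Part p) :=
  Finset.univ.filter fun S : Part p => a ∈ S.1 ∧ c ∈ S.1 ∧ b ∉ S.1 ∧ d ∉ S.1

theorem mem_sepF (a b c d : Fin (2 * p)) (S : Part p) :
    S ∈ sepF a b c d ↔ a ∈ S.1 ∧ c ∈ S.1 ∧ b ∉ S.1 ∧ d ∉ S.1 := by
  simp [sepF]

theorem count_four (a b c d : Fin (2 * p)) (hab : a ≠ b) (hac : a ≠ c) (had : a ≠ d)
    (hbc : b ≠ c) (hbd : b ≠ d) (hcd : c ≠ d) :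
    {S : Part p | (∃ u v, (K p p).Adj u v ∧ emb S u = a ∧ emb S v = b) ∧
        (∃ u v, (K p p).Adj u v ∧ emb S u = c ∧ emb S v = d)}.ncard ≤
      4 * (2 * p - 4).choose (p - 2) := by
  classical
  have hsub : {S : Part p | (∃ u v, (K p p).Adj u v ∧ emb S u = a ∧ emb S v = b) ∧
        (∃ u v, (K p p).Adj u v ∧ emb S u = c ∧ emb S v = d)} ⊆
      ((sepF a b c d ∪ sepF a b d c ∪ sepF b a c d ∪ sepF b a d c : Finset (Part p)) :
            Set (Part p)) := by
    rintro S ⟨⟨u, v, huv, hu, hv⟩, ⟨u', v', huv', hu', hv'⟩⟩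
    have k1 := emb_adj S u v huv
    have k2 := emb_adj S u' v' huv'
    rw [hu, hv] at k1
    rw [hu', hv'] at k2
    rw [Finset.mem_coe, Finset.mem_union, Finset.mem_union, Finset.mem_union, mem_sepF, mem_sepF,
      mem_sepF, mem_sepF]
    rcases k1 with ⟨k1, k1'⟩ | ⟨k1, k1'⟩ <;> rcases k2 with ⟨k2, k2'⟩ | ⟨k2, k2'⟩
    · exact Or.inl (Or.inl (Or.inl ⟨k1, k2, k1', k2'⟩))
    · exact Or.inl (Or.inl (Or.inr ⟨k1, k2', k1', k2⟩))
    · exact Or.inl (Or.inr ⟨k1', k2, k1, k2'⟩)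
    · exact Or.inr ⟨k1', k2', k1, k2⟩
  refine (Set.ncard_le_ncard hsub (Set.toFinite _)).trans ?_
  rw [Set.ncard_coe_finset]
  have f1 : (sepF a b c d).card ≤ _ := count_aux a b c d hab hac had hbc hbd hcd
  have f2 : (sepF a b d c).card ≤ _ := count_aux a b d c hab had hac hbd hbc hcd.symm
  have f3 : (sepF b a c d).card ≤ _ := count_aux b a c d hab.symm hbc hbd hac had hcd
  have f4 : (sepF b a d c).card ≤ _ := count_aux b a d c hab.symm hbd hbc had hac hcd.symm
  have g1 := Finset.card_union_le (sepF a b c d ∪ sepF a b d c ∪ sepF b a c d) (sepF b a d c)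
  have g2 := Finset.card_union_le (sepF a b c d ∪ sepF a b d c) (sepF b a c d)
  have g3 := Finset.card_union_le (sepF a b c d) (sepF a b d c)
  linarith

theorem card_part : Fintype.card (Part p) = (2 * p).choose p := by
  have : Fintype.card (Part p) = (Finset.powersetCard p (Finset.univ : Finset (Fin (2 * p)))).card := by
    rw [Fintype.card_subtype]
    congr 1
    ext S
    simp [Finset.mem_powersetCard]
  rw [this, Finset.card_powersetCard, Finset.card_univ, Fintype.card_fin]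

theorem emb_top (S : Part p) (u v : Fin p ⊕ Fin p) (huv : (K p p).Adj u v) :
    (⊤ : SimpleGraph (Fin (2 * p))).Adj (emb S u) (emb S v) := by
  rw [SimpleGraph.top_adj]
  intro h
  rcases emb_adj S u v huv with ⟨h1, h2⟩ | ⟨h1, h2⟩
  · exact h2 (h ▸ h1)
  · exact h1 (h ▸ h2)

theorem complete_count {B : ℕ} (hB : ∀ D : Drawing (K p p), B ≤ D.crossings)
    (D : Drawing (⊤ : SimpleGraph (Fin (2 * p)))) :
    (2 * p).choose p * B ≤ 4 * (2 * p - 4).choose (p - 2) * D.crossings := by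
  classical
  obtain ⟨D', h1, h2⟩ := D.uncross_gen
  have hD' : Good D' := h2
  have key := Drawing.sum_sub_le (H := K p p) D' hD' (fun S : Part p => emb S)
    (fun S => emb_inj S) (fun S u v huv => emb_top S u v huv)
    (4 * (2 * p - 4).choose (p - 2)) (fun a b c d hab hcd hac had hbc hbd =>
      count_four a b c d hab.ne hac had hbc hbd hcd.ne)
  calc (2 * p).choose p * B = ∑ _S : Part p, B := by
        rw [Finset.sum_const, smul_eq_mul, Finset.card_univ, card_part]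
    _ ≤ ∑ S : Part p, (D'.sub (emb S) (emb_inj S) (emb_top S)).crossings :=
        Finset.sum_le_sum fun S _ => hB _
    _ ≤ _ := key
    _ ≤ 4 * (2 * p - 4).choose (p - 2) * D.crossings := Nat.mul_le_mul_left _ h1

/-- the counting inequality in closed form -/
theorem complete_even (hp : 2 ≤ p) {B : ℕ} (hB : ∀ D : Drawing (K p p), B ≤ D.crossings)
    (D : Drawing (⊤ : SimpleGraph (Fin (2 * p)))) :
    (2 * p - 1) * (2 * p - 3) * B ≤ p * (p - 1) * D.crossings := by
  have h1 := complete_count hB D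
  obtain ⟨q, rfl⟩ : ∃ q, p = q + 2 := ⟨p - 2, by omega⟩
  have e1 : (2 * (q + 2)).choose (q + 2) = Nat.centralBinom (q + 2) := rfl
  have e2 : (2 * (q + 2) - 4).choose (q + 2 - 2) = Nat.centralBinom q := by
    have : 2 * (q + 2) - 4 = 2 * q := by omega
    rw [this]
    rfl
  rw [e1, e2] at h1
  have r1 := Nat.succ_mul_centralBinom_succ (q + 1)
  have r2 := Nat.succ_mul_centralBinom_succ q
  have e3 : 2 * (q + 2) - 1 = 2 * (q + 1) + 1 := by omega
  have e4 : 2 * (q + 2) - 3 = 2 * q + 1 := by omega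
  have e5 : q + 2 - 1 = q + 1 := by omega
  rw [e3, e4, e5]
  have hc : 0 < Nat.centralBinom q := Nat.centralBinom_pos q
  -- multiply by `(q+1)(q+2)`
  have h2 : (q + 2) * (q + 1) * (Nat.centralBinom (q + 2) * B) ≤
      (q + 2) * (q + 1) * (4 * Nat.centralBinom q * D.crossings) := Nat.mul_le_mul_left _ h1
  have h3 : (q + 2) * (q + 1) * Nat.centralBinom (q + 2) =
      4 * ((2 * (q + 1) + 1) * (2 * q + 1)) * Nat.centralBinom q := by
    have : (q + 2) * (q + 1) * Nat.centralBinom (q + 2) =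
        (q + 1) * ((q + 1 + 1) * Nat.centralBinom (q + 1 + 1)) := by ring
    rw [this, r1]
    have : (q + 1) * (2 * (2 * (q + 1) + 1) * Nat.centralBinom (q + 1)) =
        2 * (2 * (q + 1) + 1) * ((q + 1) * Nat.centralBinom (q + 1)) := by ring
    rw [this, r2]
    ring
  have h4 : 4 * Nat.centralBinom q * ((2 * (q + 1) + 1) * (2 * q + 1) * B) ≤
      4 * Nat.centralBinom q * ((q + 2) * (q + 1) * D.crossings) := by
    calc 4 * Nat.centralBinom q * ((2 * (q + 1) + 1) * (2 * q + 1) * B)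
        = ((q + 2) * (q + 1) * Nat.centralBinom (q + 2)) * B := by rw [h3]; ring
      _ = (q + 2) * (q + 1) * (Nat.centralBinom (q + 2) * B) := by ring
      _ ≤ _ := h2
      _ = _ := by ring
  exact Nat.le_of_mul_le_mul_left h4 (by positivity)

end part

/-- a lower bound for the balanced complete bipartite graphs -/
theorem balanced (hE : EvenB) {p : ℕ} (hp : 3 ≤ p) (D : Drawing (K p p)) :
    ((p : ℝ) - 3) ^ 4 / 16 ≤ D.crossings := by
  have hp' : (3 : ℝ) ≤ p := by exact_mod_cast hp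
  rcases Nat.even_or_odd p with he | ho
  · have h1 : ((zar p p : ℕ) : ℝ) ≤ D.crossings := by exact_mod_cast hE p p he D
    refine le_trans ?_ h1
    obtain ⟨r, hr⟩ := he
    have hr1 : 2 ≤ r := by omega
    have e1 : p / 2 = r := by omega
    have e2 : (p - 1) / 2 = r - 1 := by omega
    have e3 : (p : ℝ) = 2 * r := by rw [hr]; push_cast; ring
    unfold zar
    rw [e1, e2]
    push_cast [Nat.cast_sub (show 1 ≤ r by omega)]
    rw [e3]
    have hr2 : (2 : ℝ) ≤ r := by exact_mod_cast hr1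
    have h4 : ((2 * (r:ℝ) - 3) ^ 2 / 4) ≤ r * (r - 1) := by nlinarith
    have h5 : 0 ≤ (2 * (r:ℝ) - 3) ^ 2 / 4 := by positivity
    calc (2 * (r:ℝ) - 3) ^ 4 / 16 = ((2 * (r:ℝ) - 3) ^ 2 / 4) * ((2 * (r:ℝ) - 3) ^ 2 / 4) := by ring
      _ ≤ ((r:ℝ) * (r - 1)) * (r * (r - 1)) := mul_le_mul h4 h4 h5 (h5.trans h4)
      _ = _ := by ring
  · have h1 := odd_bound hE ho D
    obtain ⟨r, hr⟩ := ho
    have hr1 : 1 ≤ r := by omega
    have e1 : (p - 1) / 2 = r := by omega
    have e2 : (p - 1 - 1) / 2 = r - 1 := by omega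
    have e3 : p / 2 = r := by omega
    have e4 : (p : ℝ) = 2 * r + 1 := by rw [hr]; push_cast; ring
    have e5 : p - 2 = 2 * r - 1 := by omega
    unfold zar at h1
    rw [e1, e2, e3, e5] at h1
    have h2 : ((p * (r * (r - 1) * (r * r)) : ℕ) : ℝ) ≤ (((2 * r - 1) * D.crossings : ℕ) : ℝ) := by
      exact_mod_cast h1
    push_cast [Nat.cast_sub hr1, Nat.cast_sub (show 1 ≤ 2 * r by omega)] at h2
    rw [e4] at h2 ⊢
    have hr2 : (1 : ℝ) ≤ r := by exact_mod_cast hr1
    have h3 : 0 < 2 * (r:ℝ) - 1 := by linarith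
    have h4 : (2 * (r:ℝ) - 1) * ((2 * (r:ℝ) + 1 - 3) ^ 4 / 16) ≤ (2 * r - 1) * D.crossings := by
      refine le_trans ?_ h2
      have h5 : (2 * (r:ℝ) + 1 - 3) ^ 4 / 16 = (r - 1) ^ 4 := by ring
      rw [h5]
      have h6 : ((r:ℝ) - 1) ^ 3 ≤ r ^ 3 := pow_le_pow_left₀ (by linarith) (by linarith) 3
      have h7 : 0 ≤ ((r:ℝ) - 1) := by linarith
      calc (2 * (r:ℝ) - 1) * (r - 1) ^ 4 ≤ (2 * r + 1) * (r - 1) ^ 4 :=
            mul_le_mul_of_nonneg_right (by linarith) (by positivity)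
        _ = (2 * r + 1) * ((r - 1) * (r - 1) ^ 3) := by ring
        _ ≤ (2 * r + 1) * ((r - 1) * r ^ 3) := by
            apply mul_le_mul_of_nonneg_left _ (by positivity)
            exact mul_le_mul_of_nonneg_left h6 h7
        _ = _ := by ring
    exact le_of_mul_le_mul_left h4 h3

theorem complete_two_mul (hE : EvenB) {p : ℕ} (hp : 3 ≤ p)
    (D : Drawing (⊤ : SimpleGraph (Fin (2 * p)))) :
    (1 - 15 / (p : ℝ)) * ((p : ℝ) ^ 4 / 4) ≤ D.crossings := by
  have hp' : (3 : ℝ) ≤ p := by exact_mod_cast hp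
  set B : ℕ := ⌈((p : ℝ) - 3) ^ 4 / 16⌉₊ with hB
  have h1 := complete_even (p := p) (by omega) (B := B) (fun D' => by
    rw [hB]
    exact Nat.ceil_le.2 (balanced hE hp D')) D
  have h2 : (((2 * p - 1) * (2 * p - 3) * B : ℕ) : ℝ) ≤ ((p * (p - 1) * D.crossings : ℕ) : ℝ) := by
    exact_mod_cast h1
  push_cast [Nat.cast_sub (show 1 ≤ 2 * p by omega), Nat.cast_sub (show 3 ≤ 2 * p by omega),
    Nat.cast_sub (show 1 ≤ p by omega)] at h2
  have h3 : ((p : ℝ) - 3) ^ 4 / 16 ≤ B := Nat.le_ceil _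
  have hpos : 0 < (p : ℝ) * (p - 1) := mul_pos (by linarith) (by linarith)
  have h4 : (p : ℝ) * (p - 1) * ((1 - 15 / (p : ℝ)) * ((p : ℝ) ^ 4 / 4)) ≤
      p * (p - 1) * D.crossings := by
    refine le_trans ?_ h2
    have h5 : (2 * (p:ℝ) - 1) * (2 * p - 3) * (((p : ℝ) - 3) ^ 4 / 16) ≤
        (2 * (p:ℝ) - 1) * (2 * p - 3) * B :=
      mul_le_mul_of_nonneg_left h3 (mul_nonneg (by linarith) (by linarith))
    refine le_trans ?_ h5
    have hp0 : (p : ℝ) ≠ 0 := by positivity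
    have h6 : (p : ℝ) * (p - 1) * ((1 - 15 / (p : ℝ)) * ((p : ℝ) ^ 4 / 4)) =
        (p - 1) * (p - 15) * p ^ 4 / 4 := by
      field_simp
    rw [h6]
    have h7 : 4 * (p : ℝ) * (p - 2) ≤ (2 * (p:ℝ) - 1) * (2 * p - 3) := by nlinarith
    -- Bernoulli
    have h8 : (p : ℝ) ^ 3 * (p - 12) ≤ (p - 3) ^ 4 := by nlinarith [sq_nonneg ((p : ℝ) - 1)]
    have h9 : 0 ≤ ((p : ℝ) - 3) ^ 4 := by positivity
    calc ((p : ℝ) - 1) * (p - 15) * (p : ℝ) ^ 4 / 4 ≤
          ((p : ℝ) * (p - 2)) * ((p : ℝ) ^ 3 * (p - 12)) / 4 := by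
          have h10 : 0 ≤ (p : ℝ) ^ 4 * (2 * p + 9) := by positivity
          have h11 : ((p : ℝ) * (p - 2)) * ((p : ℝ) ^ 3 * (p - 12)) =
            ((p : ℝ) - 1) * (p - 15) * (p : ℝ) ^ 4 + (p : ℝ) ^ 4 * (2 * p + 9) := by ring
          rw [h11]
          linarith
      _ ≤ ((p : ℝ) * (p - 2)) * (((p : ℝ) - 3) ^ 4) / 4 := by
          apply div_le_div_of_nonneg_right _ (by norm_num)
          exact mul_le_mul_of_nonneg_left h8 (mul_nonneg (by linarith) (by linarith))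
      _ = (4 * (p : ℝ) * (p - 2)) * (((p : ℝ) - 3) ^ 4 / 16) := by ring
      _ ≤ _ := mul_le_mul_of_nonneg_right h7 (by positivity)
  exact le_of_mul_le_mul_left h4 hpos

theorem hill_le (n : ℕ) : ((hill n : ℕ) : ℝ) ≤ ((n / 2 : ℕ) : ℝ) ^ 4 / 4 := by
  have h1 : (n / 2) * ((n - 1) / 2) * ((n - 2) / 2) * ((n - 3) / 2) ≤ (n / 2) ^ 4 := by
    have a1 : (n - 1) / 2 ≤ n / 2 := by omega
    have a2 : (n - 2) / 2 ≤ n / 2 := by omega
    have a3 : (n - 3) / 2 ≤ n / 2 := by omega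
    calc (n / 2) * ((n - 1) / 2) * ((n - 2) / 2) * ((n - 3) / 2)
        ≤ (n / 2) * (n / 2) * (n / 2) * (n / 2) := by gcongr
      _ = (n / 2) ^ 4 := by ring
  unfold hill
  calc (((n / 2) * ((n - 1) / 2) * ((n - 2) / 2) * ((n - 3) / 2) / 4 : ℕ) : ℝ)
      ≤ (((n / 2) * ((n - 1) / 2) * ((n - 2) / 2) * ((n - 3) / 2) : ℕ) : ℝ) / 4 := Nat.cast_div_le
    _ ≤ (((n / 2) ^ 4 : ℕ) : ℝ) / 4 := by
        apply div_le_div_of_nonneg_right _ (by norm_num)
        exact_mod_cast h1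
    _ = _ := by push_cast; ring

/-- **The asymptotic Harary–Hill bound** in explicit form. -/
theorem complete_all (hE : EvenB) {n : ℕ} (hn : 6 ≤ n)
    (D : Drawing (⊤ : SimpleGraph (Fin n))) :
    (1 - 15 / ((n / 2 : ℕ) : ℝ)) * (hill n : ℝ) ≤ D.crossings := by
  rcases le_or_gt (1 - 15 / ((n / 2 : ℕ) : ℝ)) 0 with h0 | h0
  · exact (mul_nonpos_of_nonpos_of_nonneg h0 (Nat.cast_nonneg _)).trans (Nat.cast_nonneg _)
  have hle : 2 * (n / 2) ≤ n := by omega
  have h1 := complete_two_mul hE (p := n / 2) (by omega)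
    (D.sub (H := (⊤ : SimpleGraph (Fin (2 * (n / 2))))) (Fin.castLE hle) (Fin.castLE_injective hle)
      (by
        intro u v huv
        rw [SimpleGraph.top_adj] at huv ⊢
        exact fun h => huv (Fin.castLE_injective hle h)))
  calc (1 - 15 / ((n / 2 : ℕ) : ℝ)) * (hill n : ℝ)
      ≤ (1 - 15 / ((n / 2 : ℕ) : ℝ)) * (((n / 2 : ℕ) : ℝ) ^ 4 / 4) :=
        mul_le_mul_of_nonneg_left (hill_le n) h0.le
    _ ≤ _ := h1
    _ ≤ _ := by exact_mod_cast D.sub_crossings_le _ _ _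

/-- The limit form. -/
theorem complete_lim (hE : EvenB) (ε : ℝ) (hε : 0 < ε) : ∃ N : ℕ, ∀ n : ℕ, N ≤ n →
    ∀ D : Drawing (⊤ : SimpleGraph (Fin n)), (1 - ε) * (hill n : ℝ) ≤ D.crossings := by
  refine ⟨2 * ⌈15 / ε⌉₊ + 6, ?_⟩
  intro n hn D
  have h1 := complete_all hE (n := n) (by omega) D
  refine le_trans (mul_le_mul_of_nonneg_right ?_ (Nat.cast_nonneg _)) h1
  have h2 : ⌈15 / ε⌉₊ ≤ n / 2 := by omega
  have h3 : 15 / ε ≤ ((n / 2 : ℕ) : ℝ) := Nat.ceil_le.1 h2
  have h4 : (0:ℝ) < ((n / 2 : ℕ) : ℝ) := by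
    have : 0 < n / 2 := by omega
    exact_mod_cast this
  have h5 : 15 / ((n / 2 : ℕ) : ℝ) ≤ ε := by
    rw [div_le_iff₀ h4]
    rw [div_le_iff₀ hε] at h3
    linarith
  linarith

end Vale.Agent.P040.Even
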