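import Vale.Agent.P040.Gen.Star
import Vale.Agent.P040.Gen.Uncross
import Mathlib.MeasureTheory.Integral.IntervalIntegral.Periodic
import Mathlib.MeasureTheory.Integral.IntervalIntegral.Basic

/-!
# Counting: from the pair inequality to Zarankiewicz's number (helper377)
-/

set_option autoImplicit false

namespace Vale.Agent.P040.Even

open MeasureTheory Set Vale.Agent.P040.Gen

/-- the pairs `b < k` -/
def prs (n : ℕ) : Finset (Fin n × Fin n) := Finset.univ.filter fun p => p.1 < p.2

/-- monochromatic pairs of a colouring with two colours -/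
def mono {n : ℕ} (δ : Fin n → Bool) : Finset (Fin n × Fin n) :=
  (prs n).filter fun p => δ p.1 = δ p.2

theorem mono_aux {n : ℕ} (δ : Fin n → Bool) :
    ((Finset.univ.filter fun p : Fin n × Fin n => δ p.1 = δ p.2).card : ℤ) =
      2 * (mono δ).card + n := by
  classical
  have h1 : (Finset.univ.filter fun p : Fin n × Fin n => δ p.1 = δ p.2) =
      (mono δ ∪ (mono δ).image Prod.swap) ∪ Finset.univ.image (fun b : Fin n => (b, b)) := by
    ext ⟨b, k⟩
    simp only [mono, prs, Finset.mem_filter, Finset.mem_univ, true_and, Finset.mem_union,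
      Finset.mem_image, Prod.exists, Prod.swap_prod_mk, Prod.mk.injEq]
    constructor
    · intro h
      rcases lt_trichotomy b k with hl | hl | hl
      · exact Or.inl (Or.inl ⟨hl, h⟩)
      · exact Or.inr ⟨b, rfl, hl⟩
      · exact Or.inl (Or.inr ⟨k, b, ⟨hl, h.symm⟩, rfl, rfl⟩)
    · rintro ((⟨-, h⟩ | ⟨c, d, ⟨-, h⟩, rfl, rfl⟩) | ⟨c, rfl, rfl⟩)
      · exact h
      · exact h.symm
      · rfl
  have d1 : Disjoint (mono δ) ((mono δ).image Prod.swap) := by
    rw [Finset.disjoint_left]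
    rintro ⟨b, k⟩ h h'
    simp only [mono, prs, Finset.mem_filter, Finset.mem_univ, true_and, Finset.mem_image,
      Prod.exists, Prod.swap_prod_mk, Prod.mk.injEq] at h h'
    obtain ⟨c, d, ⟨h3, -⟩, rfl, rfl⟩ := h'
    exact absurd (h.1.trans h3) (lt_irrefl _)
  have d2 : Disjoint (mono δ ∪ (mono δ).image Prod.swap)
      (Finset.univ.image (fun b : Fin n => (b, b))) := by
    rw [Finset.disjoint_left]
    rintro ⟨b, k⟩ h h'
    simp only [mono, prs, Finset.mem_filter, Finset.mem_univ, true_and, Finset.mem_image,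
      Prod.exists, Prod.swap_prod_mk, Prod.mk.injEq, Finset.mem_union] at h h'
    obtain ⟨c, rfl, rfl⟩ := h'
    rcases h with h | ⟨c, d, ⟨h3, -⟩, rfl, h4⟩
    · exact lt_irrefl _ h.1
    · rw [h4] at h3
      exact lt_irrefl _ h3
  rw [h1, Finset.card_union_of_disjoint d2, Finset.card_union_of_disjoint d1,
    Finset.card_image_of_injective _ Prod.swap_injective,
    Finset.card_image_of_injective _ (fun a b h => (Prod.mk.injEq _ _ _ _ ▸ h).1),
    Finset.card_univ, Fintype.card_fin]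
  push_cast
  ring

theorem mono_ge {n : ℕ} (δ : Fin n → Bool) : (n / 2) * ((n - 1) / 2) ≤ (mono δ).card := by
  classical
  set A := (Finset.univ.filter fun b : Fin n => δ b = true).card with hA
  set B := (Finset.univ.filter fun b : Fin n => δ b = false).card with hB
  have hAB : A + B = n := by
    have h1 : (Finset.univ.filter fun b : Fin n => δ b = false) =
        Finset.univ.filter fun b : Fin n => ¬ δ b = true := by
      ext b; simp
    rw [hA, hB, h1, Finset.card_filter_add_card_filter_not, Finset.card_univ, Fintype.card_fin]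
  have h2 : (Finset.univ.filter fun p : Fin n × Fin n => δ p.1 = δ p.2).card = A * A + B * B := by
    have : (Finset.univ.filter fun p : Fin n × Fin n => δ p.1 = δ p.2) =
        ((Finset.univ.filter fun b : Fin n => δ b = true) ×ˢ
          (Finset.univ.filter fun b : Fin n => δ b = true)) ∪
        ((Finset.univ.filter fun b : Fin n => δ b = false) ×ˢ
          (Finset.univ.filter fun b : Fin n => δ b = false)) := by
      ext ⟨b, k⟩
      simp only [Finset.mem_filter, Finset.mem_univ, true_and, Finset.mem_union,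
        Finset.mem_product]
      cases δ b <;> cases δ k <;> simp
    rw [this, Finset.card_union_of_disjoint, Finset.card_product, Finset.card_product]
    rw [Finset.disjoint_left]
    rintro ⟨b, k⟩ h h'
    simp only [Finset.mem_filter, Finset.mem_univ, true_and, Finset.mem_product] at h h'
    rw [h.1] at h'
    exact absurd h'.1 (by simp)
  have h3 := mono_aux δ
  rw [h2] at h3
  push_cast at h3
  have h4 : (A : ℤ) + B = n := by exact_mod_cast hAB
  have h5 : (((n / 2) * ((n - 1) / 2) : ℕ) : ℤ) ≤ (mono δ).card := by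
    rcases Nat.even_or_odd n with ⟨r, hr⟩ | ⟨r, hr⟩
    · have e1 : n / 2 = r := by omega
      rcases Nat.eq_zero_or_pos r with hr0 | hr0
      · rw [e1, hr0]; simp
      · have e2 : (n - 1) / 2 = r - 1 := by omega
        rw [e1, e2]
        push_cast [Nat.cast_sub hr0]
        have e3 : (n : ℤ) = 2 * r := by rw [hr]; push_cast; ring
        nlinarith [sq_nonneg ((A : ℤ) - B)]
    · have e1 : n / 2 = r := by omega
      have e2 : (n - 1) / 2 = r := by omega
      rw [e1, e2]
      push_cast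
      have e3 : (n : ℤ) = 2 * r + 1 := by rw [hr]; push_cast; ring
      have e4 : (1 : ℤ) ≤ ((A : ℤ) - B) ^ 2 := by
        have : (A : ℤ) - B ≠ 0 := by omega
        have h6 := sq_nonneg ((A : ℤ) - B)
        have h7 : ((A : ℤ) - B) ^ 2 ≠ 0 := pow_ne_zero 2 this
        omega
      nlinarith
  exact_mod_cast h5

/-! ### the random threshold -/

/-- the colour of `u` at the threshold `s` -/
noncomputable def col (u s : ℝ) : Bool := decide (Even ⌊u - s⌋)

theorem col_eq_le {u v s : ℝ} (j : ℤ) (h : col u s = col v s) :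
    1 ≤ |(⌊u - s⌋ : ℝ) - ⌊v + 1 + 2 * j - s⌋| := by
  have h1 : v + 1 + 2 * (j : ℝ) - s = (v - s) + ((1 + 2 * j : ℤ) : ℝ) := by push_cast; ring
  rw [h1, Int.floor_add_intCast]
  have h2 : Even ⌊u - s⌋ ↔ Even ⌊v - s⌋ := by
    unfold col at h
    simpa using h
  have h3 : ⌊u - s⌋ - (⌊v - s⌋ + (1 + 2 * j)) ≠ 0 := by
    intro h0
    have h4 : ⌊u - s⌋ = ⌊v - s⌋ + 1 + 2 * j := by linarith
    by_cases he : Even ⌊v - s⌋
    · have h5 : ¬ Even (⌊v - s⌋ + 1 + 2 * j) := by
        rw [Int.even_add, Int.even_add_one]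
        simp [he]
      exact h5 (h4 ▸ h2.2 he)
    · have h5 : Even (⌊v - s⌋ + 1 + 2 * j) := by
        rw [Int.even_add, Int.even_add_one]
        simp [he]
      exact he (h2.1 (h4 ▸ h5))
  have h6 : (1 : ℤ) ≤ |⌊u - s⌋ - (⌊v - s⌋ + (1 + 2 * j))| := Int.one_le_abs h3
  exact_mod_cast h6

theorem integrable_floor (u : ℝ) : IntervalIntegrable (fun s : ℝ => (⌊u - s⌋ : ℝ)) volume 0 2 := by
  have h1 : (fun s : ℝ => (⌊u - s⌋ : ℝ)) = fun s => (u - s) - Int.fract (u - s) := by
    funext s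
    rw [Int.self_sub_fract]
  rw [h1]
  apply IntervalIntegrable.sub
  · exact (continuous_const.sub continuous_id).intervalIntegrable _ _
  · rw [intervalIntegrable_iff]
    refine Measure.integrableOn_of_bounded (M := 1) (by simp) ?_ ?_
    · exact (measurable_fract.comp (measurable_const.sub measurable_id)).aestronglyMeasurable
    · refine Filter.Eventually.of_forall fun s => ?_
      rw [Real.norm_eq_abs, abs_of_nonneg (Int.fract_nonneg _)]
      exact (Int.fract_lt_one _).le

theorem integral_fract (u w : ℝ) :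
    ∫ s in (0:ℝ)..2, Int.fract (u - s) = ∫ s in (0:ℝ)..2, Int.fract (w - s) := by
  have hp : Function.Periodic (fun x : ℝ => Int.fract x) 2 := by
    intro x
    have : x + 2 = x + ((2 : ℤ) : ℝ) := by norm_num
    show Int.fract (x + 2) = Int.fract x
    rw [this, Int.fract_add_intCast]
  have h1 : ∀ u : ℝ, ∫ s in (0:ℝ)..2, Int.fract (u - s) = ∫ x in (0:ℝ)..(0 + 2), Int.fract x := by
    intro u
    rw [intervalIntegral.integral_comp_sub_left (fun x => Int.fract x) u]
    have h2 := hp.intervalIntegral_add_eq (u - 2) 0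
    simp only [sub_add_cancel] at h2
    rw [sub_zero]
    exact h2
  rw [h1 u, h1 w]

theorem integral_floor (u : ℝ) : ∫ s in (0:ℝ)..2, (⌊u - s⌋ : ℝ) =
    (2 * u - 2) - ∫ s in (0:ℝ)..2, Int.fract (u - s) := by
  have h1 : ∀ s : ℝ, (⌊u - s⌋ : ℝ) = (u - s) - Int.fract (u - s) := by
    intro s
    rw [Int.self_sub_fract]
  simp_rw [h1]
  rw [intervalIntegral.integral_sub]
  · congr 1
    rw [intervalIntegral.integral_sub (by simp) (by simp), intervalIntegral.integral_const,
      integral_id]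
    simp
    ring
  · exact (continuous_const.sub continuous_id).intervalIntegrable _ _
  · rw [intervalIntegrable_iff]
    refine Measure.integrableOn_of_bounded (M := 1) (by simp) ?_ ?_
    · exact (measurable_fract.comp (measurable_const.sub measurable_id)).aestronglyMeasurable
    · refine Filter.Eventually.of_forall fun s => ?_
      rw [Real.norm_eq_abs, abs_of_nonneg (Int.fract_nonneg _)]
      exact (Int.fract_lt_one _).le

theorem integral_abs_floor (u w : ℝ) :
    ∫ s in (0:ℝ)..2, |(⌊u - s⌋ : ℝ) - ⌊w - s⌋| = 2 * |u - w| := by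
  wlog h : w ≤ u generalizing u w
  · rw [abs_sub_comm u w, ← this w u (le_of_not_ge h)]
    congr 1
    funext s
    rw [abs_sub_comm]
  · have h1 : ∀ s : ℝ, |(⌊u - s⌋ : ℝ) - ⌊w - s⌋| = (⌊u - s⌋ : ℝ) - ⌊w - s⌋ := by
      intro s
      apply abs_of_nonneg
      have : ⌊w - s⌋ ≤ ⌊u - s⌋ := Int.floor_le_floor (by linarith)
      have : (⌊w - s⌋ : ℝ) ≤ ⌊u - s⌋ := by exact_mod_cast this
      linarith
    simp_rw [h1]
    rw [intervalIntegral.integral_sub (integrable_floor u) (integrable_floor w), integral_floor,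
      integral_floor, integral_fract u w, abs_of_nonneg (sub_nonneg.2 h)]
    ring

/-- **Random threshold**, one potential. -/
theorem thr_one {n : ℕ} (u : Fin n → ℝ) (j : Fin n → Fin n → ℤ) :
    (((n / 2) * ((n - 1) / 2) : ℕ) : ℝ) ≤
      ∑ p ∈ prs n, |u p.1 - u p.2 - 1 - 2 * j p.1 p.2| := by
  classical
  have h1 : ∀ s : ℝ, (((n / 2) * ((n - 1) / 2) : ℕ) : ℝ) ≤
      ∑ p ∈ prs n, |(⌊u p.1 - s⌋ : ℝ) - ⌊u p.2 + 1 + 2 * j p.1 p.2 - s⌋| := by
    intro s
    calc (((n / 2) * ((n - 1) / 2) : ℕ) : ℝ) ≤ ((mono fun b => col (u b) s).card : ℝ) := by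
          exact_mod_cast mono_ge _
      _ = ∑ p ∈ (prs n).filter (fun p => col (u p.1) s = col (u p.2) s), (1:ℝ) := by
          simp [mono]
      _ ≤ ∑ p ∈ (prs n).filter (fun p => col (u p.1) s = col (u p.2) s),
          |(⌊u p.1 - s⌋ : ℝ) - ⌊u p.2 + 1 + 2 * j p.1 p.2 - s⌋| := by
          apply Finset.sum_le_sum
          intro p hp
          exact col_eq_le _ (Finset.mem_filter.1 hp).2
      _ ≤ _ := Finset.sum_le_sum_of_subset_of_nonneg (Finset.filter_subset _ _)
          fun _ _ _ => abs_nonneg _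
  have hint : ∀ p ∈ prs n, IntervalIntegrable
      (fun s : ℝ => |(⌊u p.1 - s⌋ : ℝ) - ⌊u p.2 + 1 + 2 * j p.1 p.2 - s⌋|) volume 0 2 := fun p _ =>
    ((integrable_floor _).sub (integrable_floor _)).abs
  have h2 : ∫ _s in (0:ℝ)..2, (((n / 2) * ((n - 1) / 2) : ℕ) : ℝ) ≤
      ∫ s in (0:ℝ)..2, ∑ p ∈ prs n, |(⌊u p.1 - s⌋ : ℝ) - ⌊u p.2 + 1 + 2 * j p.1 p.2 - s⌋| := by
    apply intervalIntegral.integral_mono_on (by norm_num) (by simp)
    · have := IntervalIntegrable.sum (prs n) hint
      simpa [Finset.sum_fn] using this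
    · intro s _
      exact h1 s
  rw [intervalIntegral.integral_finsetSum hint, intervalIntegral.integral_const] at h2
  simp_rw [integral_abs_floor] at h2
  rw [← Finset.mul_sum] at h2
  have h3 : ∀ p : Fin n × Fin n, u p.1 - (u p.2 + 1 + 2 * (j p.1 p.2 : ℝ)) =
      u p.1 - u p.2 - 1 - 2 * j p.1 p.2 := fun p => by ring
  simp_rw [h3] at h2
  rw [smul_eq_mul, sub_zero] at h2
  linarith

/-- **Random threshold**, finitely many potentials. -/
theorem thr {n : ℕ} {Z : Type*} [Fintype Z] (a T : Z → ℝ) (f : Z → Fin n → ℝ)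
    (c : Fin n → Fin n → ℝ) (ha : ∀ z, 0 ≤ a z) (hT : ∀ z, 0 ≤ T z)
    (h : ∀ b k, b < k → ∃ j : Z → ℤ, ∑ z, a z * |f z b - f z k - T z - 2 * T z * j z| ≤ c b k) :
    (∑ z, a z * T z) * (((n / 2) * ((n - 1) / 2) : ℕ) : ℝ) ≤ ∑ p ∈ prs n, c p.1 p.2 := by
  classical
  have h' : ∀ b k, ∃ j : Z → ℤ, b < k →
      ∑ z, a z * |f z b - f z k - T z - 2 * T z * j z| ≤ c b k := by
    intro b k
    by_cases hbk : b < k
    · obtain ⟨j, hj⟩ := h b k hbk
      exact ⟨j, fun _ => hj⟩
    · exact ⟨fun _ => 0, fun h0 => absurd h0 hbk⟩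
  choose j hj using h'
  have h1 : ∀ z, a z * T z * (((n / 2) * ((n - 1) / 2) : ℕ) : ℝ) ≤
      ∑ p ∈ prs n, a z * |f z p.1 - f z p.2 - T z - 2 * T z * j p.1 p.2 z| := by
    intro z
    rcases (hT z).eq_or_lt with h0 | h0
    · rw [← h0]
      simp only [mul_zero, zero_mul]
      exact Finset.sum_nonneg fun p _ => mul_nonneg (ha z) (abs_nonneg _)
    · have h2 := thr_one (fun b => f z b / T z) (fun b k => j b k z)
      have h3 := mul_le_mul_of_nonneg_left h2 (mul_nonneg (ha z) h0.le)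
      refine h3.trans (le_of_eq ?_)
      rw [Finset.mul_sum]
      refine Finset.sum_congr rfl fun p _ => ?_
      rw [mul_assoc]
      congr 1
      rw [← abs_of_pos h0, ← abs_mul, abs_of_pos h0]
      congr 1
      field_simp
  rw [Finset.sum_mul]
  calc ∑ z, a z * T z * (((n / 2) * ((n - 1) / 2) : ℕ) : ℝ)
      ≤ ∑ z, ∑ p ∈ prs n, a z * |f z p.1 - f z p.2 - T z - 2 * T z * j p.1 p.2 z| :=
        Finset.sum_le_sum fun z _ => h1 z
    _ = ∑ p ∈ prs n, ∑ z, a z * |f z p.1 - f z p.2 - T z - 2 * T z * j p.1 p.2 z| :=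
        Finset.sum_comm
    _ ≤ _ := by
        apply Finset.sum_le_sum
        intro p hp
        exact hj p.1 p.2 (Finset.mem_filter.1 hp).2

/-- the form with a random colouring -/
theorem of_colouring {n : ℕ} {Ω : Type*} [MeasurableSpace Ω] (P : Measure Ω)
    [IsProbabilityMeasure P] (δ : Ω → Fin n → Bool) (hδ : ∀ b, Measurable fun ω => δ ω b)
    (D0 : ℝ) (hD0 : 0 ≤ D0) (c : Fin n → Fin n → ℝ)
    (h : ∀ b k, b < k → D0 * P.real {ω | δ ω b = δ ω k} ≤ c b k) :
    D0 * (((n / 2) * ((n - 1) / 2) : ℕ) : ℝ) ≤ ∑ p ∈ prs n, c p.1 p.2 := by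
  classical
  have hm : ∀ p : Fin n × Fin n, MeasurableSet {ω | δ ω p.1 = δ ω p.2} := fun p =>
    measurableSet_eq_fun (hδ p.1) (hδ p.2)
  have h1 : (((n / 2) * ((n - 1) / 2) : ℕ) : ℝ) ≤
      ∑ p ∈ prs n, P.real {ω | δ ω p.1 = δ ω p.2} := by
    have h2 : ∀ ω, (((n / 2) * ((n - 1) / 2) : ℕ) : ℝ) ≤
        ∑ p ∈ prs n, ({ω | δ ω p.1 = δ ω p.2} : Set Ω).indicator (fun _ => (1:ℝ)) ω := by
      intro ω
      have h3 : ∑ p ∈ prs n, ({ω | δ ω p.1 = δ ω p.2} : Set Ω).indicator (fun _ => (1:ℝ)) ω =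
          ((mono (δ ω)).card : ℝ) := by
        simp only [Set.indicator_apply, Set.mem_ofPred_eq, mono, Finset.card_filter]
        push_cast
        rfl
      rw [h3]
      exact_mod_cast mono_ge _
    have hi : ∀ p ∈ prs n, Integrable
        (({ω | δ ω p.1 = δ ω p.2} : Set Ω).indicator (fun _ => (1:ℝ))) P := fun p _ =>
      (integrable_const 1).indicator (hm p)
    have h4 := integral_mono (μ := P) (integrable_const _) (integrable_finsetSum _ hi) h2
    rw [integral_finsetSum _ hi, integral_const] at h4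
    simp_rw [integral_indicator_const (1:ℝ) (hm _)] at h4
    simpa using h4
  calc D0 * (((n / 2) * ((n - 1) / 2) : ℕ) : ℝ)
      ≤ D0 * ∑ p ∈ prs n, P.real {ω | δ ω p.1 = δ ω p.2} := mul_le_mul_of_nonneg_left h1 hD0
    _ = ∑ p ∈ prs n, D0 * P.real {ω | δ ω p.1 = δ ω p.2} := Finset.mul_sum _ _ _
    _ ≤ _ := by
        apply Finset.sum_le_sum
        intro p hp
        exact h p.1 p.2 (Finset.mem_filter.1 hp).2

/-! ### crossings of two stars -/

variable {m n : ℕ}

/-- the number of crossings of edges without common end of the stars at `b` and at `k` -/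
noncomputable def scr (D : Drawing (K m n)) (b k : Fin n) : ℕ :=
  ∑ p ∈ Finset.univ.filter (fun p : Fin m × Fin m => p.1 ≠ p.2),
    (D.arc s(.inl p.1, .inr b) ∩ D.arc s(.inl p.2, .inr k)).ncard

theorem scr_comm (D : Drawing (K m n)) (b k : Fin n) : scr D b k = scr D k b := by
  classical
  unfold scr
  refine Finset.sum_bij' (fun p _ => (p.2, p.1)) (fun p _ => (p.2, p.1)) ?_ ?_ ?_ ?_ ?_
  · intro p hp
    simpa [eq_comm] using hp
  · intro p hp
    simpa [eq_comm] using hp
  · intro p _; rfl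
  · intro p _; rfl
  · intro p _
    rw [Set.inter_comm]

theorem sum_scr_le (D : Drawing (K m n)) : ∑ p ∈ prs n, scr D p.1 p.2 ≤ D.crossings := by
  classical
  refine le_trans (le_of_eq ?_) (sum_pairs_le D)
  -- both sides count the quadruples once
  let A : Fin m → Fin m → Fin n → Fin n → ℕ := fun x y b k =>
    (D.arc s(.inl x, .inr b) ∩ D.arc s(.inl y, .inr k)).ncard
  have hA : ∀ x y b k, A x y b k = A y x k b := fun x y b k => by
    show Set.ncard _ = Set.ncard _
    rw [Set.inter_comm]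
  have e1 : ∑ p ∈ prs n, scr D p.1 p.2 =
      ∑ i ∈ (Finset.univ.filter fun i : (Fin m × Fin m) × (Fin n × Fin n) =>
        i.1.1 ≠ i.1.2 ∧ i.2.1 < i.2.2), A i.1.1 i.1.2 i.2.1 i.2.2 := by
    have : (Finset.univ.filter fun i : (Fin m × Fin m) × (Fin n × Fin n) =>
        i.1.1 ≠ i.1.2 ∧ i.2.1 < i.2.2) =
        (Finset.univ.filter fun p : Fin m × Fin m => p.1 ≠ p.2) ×ˢ (prs n) := by
      ext i
      simp [prs]
    rw [this, Finset.sum_product_right]
    rfl
  have e2 : ∑ p ∈ Finset.univ.filter (fun p : Fin m × Fin m => p.1 < p.2),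
      ∑ q ∈ Finset.univ.filter (fun q : Fin n × Fin n => q.1 ≠ q.2),
        (D.arc s(.inl p.1, .inr q.1) ∩ D.arc s(.inl p.2, .inr q.2)).ncard =
      ∑ i ∈ (Finset.univ.filter fun i : (Fin m × Fin m) × (Fin n × Fin n) =>
        i.1.1 < i.1.2 ∧ i.2.1 ≠ i.2.2), A i.1.1 i.1.2 i.2.1 i.2.2 := by
    have : (Finset.univ.filter fun i : (Fin m × Fin m) × (Fin n × Fin n) =>
        i.1.1 < i.1.2 ∧ i.2.1 ≠ i.2.2) =
        (Finset.univ.filter fun p : Fin m × Fin m => p.1 < p.2) ×ˢ
          (Finset.univ.filter fun q : Fin n × Fin n => q.1 ≠ q.2) := by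
      ext i
      simp
    rw [this, Finset.sum_product]
  rw [e1, e2]
  let sw : (Fin m × Fin m) × (Fin n × Fin n) → (Fin m × Fin m) × (Fin n × Fin n) := fun i =>
    ((i.1.2, i.1.1), (i.2.2, i.2.1))
  refine Finset.sum_bij' (fun i _ => if i.1.1 < i.1.2 then i else sw i)
    (fun i _ => if i.2.1 < i.2.2 then i else sw i) ?_ ?_ ?_ ?_ ?_
  · intro i hi
    simp only [Finset.mem_filter, Finset.mem_univ, true_and] at hi ⊢
    split_ifs with h
    · exact ⟨h, hi.2.ne⟩
    · exact ⟨lt_of_le_of_ne (not_lt.1 h) (Ne.symm hi.1), hi.2.ne'⟩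
  · intro i hi
    simp only [Finset.mem_filter, Finset.mem_univ, true_and] at hi ⊢
    split_ifs with h
    · exact ⟨hi.1.ne, h⟩
    · exact ⟨hi.1.ne', lt_of_le_of_ne (not_lt.1 h) (Ne.symm hi.2)⟩
  · intro i hi
    simp only [Finset.mem_filter, Finset.mem_univ, true_and] at hi
    by_cases h : i.1.1 < i.1.2
    · simp only [h, if_true, hi.2]
    · simp only [h, if_false]
      have : ¬ (sw i).2.1 < (sw i).2.2 := fun h' => absurd (h'.trans hi.2) (lt_irrefl _)
      rw [if_neg this]
  · intro i hi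
    simp only [Finset.mem_filter, Finset.mem_univ, true_and] at hi
    by_cases h : i.2.1 < i.2.2
    · simp only [h, if_true, hi.1]
    · simp only [h, if_false]
      have : ¬ (sw i).1.1 < (sw i).1.2 := fun h' => absurd (h'.trans hi.1) (lt_irrefl _)
      rw [if_neg this]
  · intro i hi
    split_ifs with h
    · rfl
    · exact hA _ _ _ _

/-- adjacent edges meet only in their common end -/
def Good {V : Type} {G : SimpleGraph V} (D : Drawing G) : Prop :=
  ∀ v a b, G.Adj v a → G.Adj v b → a ≠ b → ∀ p ∈ D.arc s(v, a), p ∈ D.arc s(v, b) → p = D.pos v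

/-- **The pair inequality** for the drawing `D`: potentials of the stars such that the opposite
star is at distance `T z`. -/
def Pair (D : Drawing (K m n)) : Prop :=
  ∃ (Z : Type) (_ : Fintype Z) (a T : Z → ℝ) (f : Z → Fin n → ℝ), (∀ z, 0 ≤ a z) ∧
    (∀ z, 0 ≤ T z) ∧ (((m / 2) * ((m - 1) / 2) : ℕ) : ℝ) ≤ ∑ z, a z * T z ∧
    ∀ b k, b < k → ∃ j : Z → ℤ, ∑ z, a z * |f z b - f z k - T z - 2 * T z * j z| ≤ scr D b k

/-- The pair inequality gives Zarankiewicz's bound. -/
theorem zar_le_of_pair (D : Drawing (K m n)) (h : Pair D) : zar m n ≤ D.crossings := by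
  obtain ⟨Z, _, a, T, f, ha, hT, hs, hp⟩ := h
  have h1 := thr a T f (fun b k => (scr D b k : ℝ)) ha hT hp
  have h2 : (∑ p ∈ prs n, (scr D p.1 p.2 : ℝ)) ≤ D.crossings := by
    exact_mod_cast sum_scr_le D
  have h3 : ((zar m n : ℕ) : ℝ) ≤ D.crossings := by
    have h4 : ((zar m n : ℕ) : ℝ) = (((m / 2) * ((m - 1) / 2) : ℕ) : ℝ) *
        (((n / 2) * ((n - 1) / 2) : ℕ) : ℝ) := by
      unfold zar
      push_cast
      ring
    rw [h4]
    refine le_trans ?_ (h1.trans h2)
    exact mul_le_mul_of_nonneg_right hs (Nat.cast_nonneg _)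
  exact_mod_cast h3

/-- It is enough to prove the pair inequality for drawings in which adjacent edges do not cross. -/
theorem zar_le_of_good (h : ∀ D : Drawing (K m n), Good D → Pair D) (D : Drawing (K m n)) :
    zar m n ≤ D.crossings := by
  obtain ⟨D', h1, h2⟩ := D.uncross_gen
  exact (zar_le_of_pair D' (h D' h2)).trans h1

end Vale.Agent.P040.Even
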