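import Vale.Agent.P040.Even.All
import Vale.Agent.P040.H84.Machine
import Vale.Agent.P040.H45.OddEnd

/-!
# Zarankiewicz for all `m`, `n` from the odd machine (helper377)
-/

set_option autoImplicit false

namespace Vale.Agent.P040.Even

open Set Filter Topology

theorem evenB : EvenB := Bp.even_of_machine H84.machine

theorem oddB_of (M : Odd.OddMachine) : OddB := fun _ _ hm _ D => Odd.odd_of_machine M hm D

/-- **Zarankiewicz's conjecture**, all `m`, `n`, from the odd machine. -/
theorem full (M : Odd.OddMachine) (m n : ℕ) :
    IsLeast {c | ∃ D : Drawing (K m n), D.crossings = c} (zar m n) :=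
  least_all evenB (oddB_of M) m n

end Vale.Agent.P040.Even
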