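import Vale.Agent.P040.Even.Count

/-!
# Sub-drawings and double counting (helper377)
-/

set_option autoImplicit false

namespace Vale.Agent.P040

open Set

namespace Drawing

variable {V W : Type} {G : SimpleGraph V} {H : SimpleGraph W}

/-- the drawing induced on a subgraph -/
def sub (D : Drawing G) (f : W → V) (hf : Function.Injective f)
    (h : ∀ u v, H.Adj u v → G.Adj (f u) (f v)) : Drawing H where
  pos := D.pos ∘ f
  pos_inj := D.pos_inj.comp hf
  arc := fun e => D.arc (e.map f)
  isArc := by
    intro u v huv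
    exact D.isArc _ _ (h u v huv)
  avoid := by
    intro e he w hw
    have he' : e.map f ∈ G.edgeSet := by
      induction e with
      | _ u v => exact h u v he
    have := D.avoid _ he' _ hw
    rw [Sym2.mem_map] at this
    obtain ⟨v, hv, hvw⟩ := this
    rwa [← hf hvw]
  finite := by
    intro e he e' he' hne
    have h1 : e.map f ∈ G.edgeSet := by
      induction e with
      | _ u v => exact h u v he
    have h2 : e'.map f ∈ G.edgeSet := by
      induction e' with
      | _ u v => exact h u v he'
    have h3 : e.map f ≠ e'.map f := fun h0 => hne (Sym2.map.injective hf h0)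
    refine (D.finite _ h1 _ h2 h3).subset ?_
    rintro x ⟨⟨x1, x2⟩, x3, -⟩
    have hx : x ∉ range D.pos := by
      rintro ⟨w, rfl⟩
      have := D.avoid _ h1 w x1
      rw [Sym2.mem_map] at this
      obtain ⟨v, -, rfl⟩ := this
      exact x2 ⟨v, rfl⟩
    exact ⟨⟨x1, hx⟩, x3, hx⟩
  proper := by
    intro e he e' he' hne
    have h1 : e.map f ∈ G.edgeSet := by
      induction e with
      | _ u v => exact h u v he
    have h2 : e'.map f ∈ G.edgeSet := by
      induction e' with
      | _ u v => exact h u v he'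
    have h3 : e.map f ≠ e'.map f := fun h0 => hne (Sym2.map.injective hf h0)
    rintro x ⟨⟨x1, x2⟩, x3, -⟩
    have hx : x ∉ range D.pos := by
      rintro ⟨w, rfl⟩
      have := D.avoid _ h1 w x1
      rw [Sym2.mem_map] at this
      obtain ⟨v, -, rfl⟩ := this
      exact x2 ⟨v, rfl⟩
    exact D.proper _ h1 _ h2 h3 x ⟨⟨x1, hx⟩, x3, hx⟩
  two := by
    intro e he e' he' e'' he'' hne hne' hne'' x hx x1 x2 x3
    have h1 : e.map f ∈ G.edgeSet := by
      induction e with
      | _ u v => exact h u v he
    have h2 : e'.map f ∈ G.edgeSet := by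
      induction e' with
      | _ u v => exact h u v he'
    have h3 : e''.map f ∈ G.edgeSet := by
      induction e'' with
      | _ u v => exact h u v he''
    have hx : x ∉ range D.pos := by
      rintro ⟨w, rfl⟩
      have := D.avoid _ h1 w x1
      rw [Sym2.mem_map] at this
      obtain ⟨v, -, rfl⟩ := this
      exact hx ⟨v, rfl⟩
    exact D.two _ h1 _ h2 _ h3 (fun h0 => hne (Sym2.map.injective hf h0))
      (fun h0 => hne' (Sym2.map.injective hf h0)) (fun h0 => hne'' (Sym2.map.injective hf h0))
      x hx x1 x2 x3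

theorem sub_crossingSet (D : Drawing G) (f : W → V) (hf : Function.Injective f)
    (h : ∀ u v, H.Adj u v → G.Adj (f u) (f v)) (x : Plane) :
    x ∈ (D.sub f hf h).crossingSet ↔ x ∉ range D.pos ∧ ∃ e ∈ H.edgeSet, ∃ e' ∈ H.edgeSet, e ≠ e' ∧
      x ∈ D.arc (e.map f) ∧ x ∈ D.arc (e'.map f) := by
  constructor
  · rintro ⟨hx, e, he, e', he', hne, x1, x2⟩
    have h1 : e.map f ∈ G.edgeSet := by
      induction e with
      | _ u v => exact h u v he
    refine ⟨?_, e, he, e', he', hne, x1, x2⟩
    rintro ⟨w, rfl⟩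
    have := D.avoid _ h1 w x1
    rw [Sym2.mem_map] at this
    obtain ⟨v, -, rfl⟩ := this
    exact hx ⟨v, rfl⟩
  · rintro ⟨hx, e, he, e', he', hne, x1, x2⟩
    refine ⟨?_, e, he, e', he', hne, x1, x2⟩
    rintro ⟨w, rfl⟩
    exact hx ⟨f w, rfl⟩

theorem sub_crossings_le [Finite V] (D : Drawing G) (f : W → V) (hf : Function.Injective f)
    (h : ∀ u v, H.Adj u v → G.Adj (f u) (f v)) : (D.sub f hf h).crossings ≤ D.crossings := by
  refine Set.ncard_le_ncard ?_ D.crossingSet_finite
  intro x hx
  rw [sub_crossingSet] at hx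
  obtain ⟨hx, e, he, e', he', hne, x1, x2⟩ := hx
  refine ⟨hx, _, ?_, _, ?_, fun h0 => hne (Sym2.map.injective hf h0), x1, x2⟩
  · induction e with
    | _ u v => exact h u v he
  · induction e' with
    | _ u v => exact h u v he'

/-- **Double counting**: if two vertex disjoint edges are both present in at most `N` of the
sub-drawings of a good drawing, the numbers of crossings of the sub-drawings add up to at most `N`
times the number of crossings. -/
theorem sum_sub_le [Finite V] {ι : Type} [Fintype ι] (D : Drawing G) (hD : Even.Good D)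
    (f : ι → W → V) (hf : ∀ i, Function.Injective (f i))
    (h : ∀ i u v, H.Adj u v → G.Adj (f i u) (f i v)) (N : ℕ)
    (hN : ∀ a b c d : V, G.Adj a b → G.Adj c d → a ≠ c → a ≠ d → b ≠ c → b ≠ d →
      {i | (∃ u v, H.Adj u v ∧ f i u = a ∧ f i v = b) ∧
        (∃ u v, H.Adj u v ∧ f i u = c ∧ f i v = d)}.ncard ≤ N) :
    ∑ i, (D.sub (f i) (hf i) (h i)).crossings ≤ N * D.crossings := by
  classical
  have hfin := D.crossingSet_finite
  set X := hfin.toFinset with hX
  have h1 : ∀ i, (D.sub (f i) (hf i) (h i)).crossings =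
      (X.filter fun x => x ∈ (D.sub (f i) (hf i) (h i)).crossingSet).card := by
    intro i
    unfold crossings
    rw [← Set.ncard_coe_finset]
    congr 1
    ext x
    simp only [Finset.coe_filter, Set.mem_ofPred_eq]
    constructor
    · intro hx
      refine ⟨?_, hx⟩
      rw [hX, Set.Finite.mem_toFinset]
      rw [sub_crossingSet] at hx
      obtain ⟨hx, e, he, e', he', hne, x1, x2⟩ := hx
      refine ⟨hx, _, ?_, _, ?_, fun h0 => hne (Sym2.map.injective (hf i) h0), x1, x2⟩
      · induction e with
        | _ u v => exact h i u v he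
      · induction e' with
        | _ u v => exact h i u v he'
    · exact fun hx => hx.2
  simp_rw [h1, Finset.card_filter]
  rw [Finset.sum_comm]
  have h2 : ∀ x ∈ X, ∑ i, (if x ∈ (D.sub (f i) (hf i) (h i)).crossingSet then 1 else 0) ≤ N := by
    intro x hx
    rw [hX, Set.Finite.mem_toFinset] at hx
    obtain ⟨hx0, e, he, e', he', hne, x1, x2⟩ := hx
    induction e with
    | _ a b =>
    induction e' with
    | _ c d =>
    have hab : G.Adj a b := he
    have hcd : G.Adj c d := he'
    have hdis : ∀ v, v ∈ s(a, b) → v ∉ s(c, d) := by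
      intro v hv hv'
      obtain ⟨u, hu⟩ := Sym2.mem_iff_exists.1 hv
      obtain ⟨u', hu'⟩ := Sym2.mem_iff_exists.1 hv'
      rw [hu] at x1 hne he
      rw [hu'] at x2 hne he'
      have huu : u ≠ u' := fun h0 => hne (by rw [h0])
      have := hD v u u' he he' huu x x1 x2
      exact hx0 ⟨v, this.symm⟩
    have k1 : a ≠ c := fun h0 => hdis a (Sym2.mem_mk_left _ _) (h0 ▸ Sym2.mem_mk_left _ _)
    have k2 : a ≠ d := fun h0 => hdis a (Sym2.mem_mk_left _ _) (h0 ▸ Sym2.mem_mk_right _ _)
    have k3 : b ≠ c := fun h0 => hdis b (Sym2.mem_mk_right _ _) (h0 ▸ Sym2.mem_mk_left _ _)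
    have k4 : b ≠ d := fun h0 => hdis b (Sym2.mem_mk_right _ _) (h0 ▸ Sym2.mem_mk_right _ _)
    refine le_trans ?_ (hN a b c d hab hcd k1 k2 k3 k4)
    rw [← Finset.card_filter, ← Set.ncard_coe_finset]
    refine Set.ncard_le_ncard ?_ (Set.toFinite _)
    intro i hi
    simp only [Finset.coe_filter, Finset.mem_univ, true_and, Set.mem_ofPred_eq] at hi
    rw [sub_crossingSet] at hi
    obtain ⟨-, g, hg, g', hg', hgg, y1, y2⟩ := hi
    have m1 : g.map (f i) ∈ G.edgeSet := by
      induction g with
      | _ u v => exact h i u v hg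
    have m2 : g'.map (f i) ∈ G.edgeSet := by
      induction g' with
      | _ u v => exact h i u v hg'
    have key : ∀ (g : Sym2 W) (p q : V), g ∈ H.edgeSet → g.map (f i) = s(p, q) →
        ∃ u v, H.Adj u v ∧ f i u = p ∧ f i v = q := by
      intro g p q hg hgm
      induction g with
      | _ u v =>
      have hgm' : s(f i u, f i v) = s(p, q) := hgm
      rw [Sym2.eq_iff] at hgm'
      rcases hgm' with ⟨r1, r2⟩ | ⟨r1, r2⟩
      · exact ⟨u, v, hg, r1, r2⟩
      · exact ⟨v, u, (SimpleGraph.Adj.symm hg), r2, r1⟩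
    rcases D.pair_unique hx0 m1 m2 he he' (fun h0 => hgg (Sym2.map.injective (hf i) h0)) hne y1 y2
      x1 x2 with ⟨r1, r2⟩ | ⟨r1, r2⟩
    · exact ⟨key g a b hg r1, key g' c d hg' r2⟩
    · exact ⟨key g' a b hg' r2, key g c d hg r1⟩
  calc ∑ x ∈ X, ∑ i, (if x ∈ (D.sub (f i) (hf i) (h i)).crossingSet then 1 else 0)
      ≤ ∑ _x ∈ X, N := Finset.sum_le_sum h2
    _ = N * D.crossings := by
      rw [Finset.sum_const, smul_eq_mul, mul_comm]
      congr 1
      rw [hX]
      unfold crossings
      rw [Set.ncard_eq_toFinset_card _ hfin]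

end Drawing

end Vale.Agent.P040
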