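import Mathlib.Data.Real.Basic
import Mathlib.Algebra.BigOperators.Group.Finset.Basic
import Mathlib.Algebra.Order.BigOperators.Group.Finset
import Mathlib.Tactic

/-!
# The sum rule

`u j` is the value of the selector on the doubled substar of the arms `j+1, …, j+h` of a star.
The potential of the leaf at position `j` whose arm has transport `θ` is `(u (j-1) + u j)/2 - θ`.
One half twist changes the potentials by exactly `1` in total.
-/

set_option autoImplicit false

namespace Vale.Agent.P040.Even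

open Finset

/-- the potential of the leaf at position `j`, transport `θ` -/
noncomputable def pot (u : ℤ → ℝ) (j : ℤ) (θ : ℝ) : ℝ := (u (j - 1) + u j) / 2 - θ

/-- the values of the selector on the halving substars of one star -/
structure SelSeq (h : ℕ) (u : ℤ → ℝ) : Prop where
  half : ∀ j, u (j + h) = u j + h / 2
  mono : ∀ j, u j ≤ u (j + 1)
  lip : ∀ j, u (j + 1) ≤ u j + 1

/-- two sequences which differ only at the positions `i` modulo `h` -/
def DiffAt (h : ℕ) (u u' : ℤ → ℝ) (i : ℤ) : Prop := ∀ j, ¬ (h : ℤ) ∣ j - i → u' j = u j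

theorem DiffAt.symm {h : ℕ} {u u' : ℤ → ℝ} {i : ℤ} (H : DiffAt h u u' i) : DiffAt h u' u i :=
  fun j hj => (H j hj).symm

section values

variable {h : ℕ} {u u' : ℤ → ℝ} {i : ℤ}

theorem DiffAt.sub_one (hh : 2 ≤ h) (H : DiffAt h u u' i) : u' (i - 1) = u (i - 1) := by
  apply H
  intro hd
  have h1 : i - 1 - i = -1 := by ring
  rw [h1] at hd
  have := Int.le_of_dvd one_pos ((Int.dvd_neg).1 hd)
  omega

theorem DiffAt.add_one (hh : 2 ≤ h) (H : DiffAt h u u' i) : u' (i + 1) = u (i + 1) := by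
  apply H
  intro hd
  have h1 : i + 1 - i = 1 := by ring
  rw [h1] at hd
  have := Int.le_of_dvd one_pos hd
  omega

end values

/-- **The half twist, positive.** The arms `x` (position `i`) and `y` (position `i + 1`) change
places, the arm `x` is rerouted (its transport increases by `1`); `p`, `q` are the leaves opposite
to `x`, `y`. -/
theorem sum_rule {Z : Type*} [Fintype Z] [DecidableEq Z] {h : ℕ} (hh : 2 ≤ h)
    {u u' : ℤ → ℝ} {i : ℤ} (hu : SelSeq h u) (hu' : SelSeq h u') (hd : DiffAt h u u' i)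
    (hs : u i ≤ u' i) {x y p q : Z} (hxy : x ≠ y) (hxp : x ≠ p) (hxq : x ≠ q) (hyp : y ≠ p)
    (hyq : y ≠ q) (hpq : p ≠ q) {F F' : Z → ℝ} {tx ty tp tq : ℝ}
    (hx : F x = pot u i tx) (hx' : F' x = pot u' (i + 1) (tx + 1))
    (hy : F y = pot u (i + 1) ty) (hy' : F' y = pot u' i ty)
    (hp : F p = pot u (i + h) tp) (hp' : F' p = pot u' (i + h) tp)
    (hq : F q = pot u (i + h + 1) tq) (hq' : F' q = pot u' (i + h + 1) tq)
    (ho : ∀ z, z ≠ x → z ≠ y → z ≠ p → z ≠ q → F' z = F z) :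
    ∑ z, |F' z - F z| = 1 := by
  have hsub : ∑ z ∈ ({x, y, p, q} : Finset Z), |F' z - F z| = ∑ z, |F' z - F z| := by
    apply Finset.sum_subset (Finset.subset_univ _)
    intro z _ hz
    simp only [Finset.mem_insert, Finset.mem_singleton, not_or] at hz
    rw [ho z hz.1 hz.2.1 hz.2.2.1 hz.2.2.2, sub_self, abs_zero]
  rw [← hsub, Finset.sum_insert (by simp [hxy, hxp, hxq]),
    Finset.sum_insert (by simp [hyp, hyq]), Finset.sum_insert (by simp [hpq]),
    Finset.sum_singleton]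
  have e1 := hd.sub_one hh
  have e2 := hd.add_one hh
  have m1 := hu.mono i
  have m2 := hu.mono (i - 1)
  have m3 := hu'.mono i
  have m4 := hu'.mono (i - 1)
  have l1 := hu.lip i
  have l2 := hu.lip (i - 1)
  have l3 := hu'.lip i
  have l4 := hu'.lip (i - 1)
  rw [sub_add_cancel] at m2 m4 l2 l4
  have k1 := hu.half i
  have k2 := hu'.half i
  have k3 := hu.half (i - 1)
  have k4 := hu'.half (i - 1)
  have k5 := hu.half (i + 1)
  have k6 := hu'.half (i + 1)
  have r1 : i - 1 + (h : ℤ) = i + h - 1 := by ring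
  have r2 : i + 1 + (h : ℤ) = i + h + 1 := by ring
  rw [r1] at k3 k4
  rw [r2] at k5 k6
  have dx : F' x - F x = (u' i - u (i - 1) + (u (i + 1) - u i)) / 2 - 1 := by
    rw [hx, hx', pot, pot, add_sub_cancel_right, e2]; ring
  have dy : F' y - F y = - ((u i - u (i - 1) + (u (i + 1) - u' i)) / 2) := by
    rw [hy, hy', pot, pot, add_sub_cancel_right, e1]; ring
  have dp : F' p - F p = (u' i - u i) / 2 := by
    rw [hp, hp', pot, pot, k1, k2, k3, k4, e1]; ring
  have dq : F' q - F q = (u' i - u i) / 2 := by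
    rw [hq, hq', pot, pot, add_sub_cancel_right, k1, k2, k5, k6, e2]; ring
  rw [dx, dy, dp, dq]
  rw [abs_of_nonpos (by linarith), abs_of_nonpos (by linarith), abs_of_nonneg (by linarith)]
  ring

/-- **The half twist, negative.** The arms `x` (position `i`) and `y` (position `i + 1`) change
places, the arm `y` is rerouted (its transport decreases by `1`). -/
theorem sum_rule' {Z : Type*} [Fintype Z] [DecidableEq Z] {h : ℕ} (hh : 2 ≤ h)
    {u u' : ℤ → ℝ} {i : ℤ} (hu : SelSeq h u) (hu' : SelSeq h u') (hd : DiffAt h u u' i)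
    (hs : u' i ≤ u i) {x y p q : Z} (hxy : x ≠ y) (hxp : x ≠ p) (hxq : x ≠ q) (hyp : y ≠ p)
    (hyq : y ≠ q) (hpq : p ≠ q) {F F' : Z → ℝ} {tx ty tp tq : ℝ}
    (hx : F x = pot u i tx) (hx' : F' x = pot u' (i + 1) tx)
    (hy : F y = pot u (i + 1) ty) (hy' : F' y = pot u' i (ty - 1))
    (hp : F p = pot u (i + h) tp) (hp' : F' p = pot u' (i + h) tp)
    (hq : F q = pot u (i + h + 1) tq) (hq' : F' q = pot u' (i + h + 1) tq)
    (ho : ∀ z, z ≠ x → z ≠ y → z ≠ p → z ≠ q → F' z = F z) :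
    ∑ z, |F' z - F z| = 1 := by
  have H := sum_rule (F := F') (F' := F) (x := y) (y := x) (p := p) (q := q) (tx := ty - 1)
    (ty := tx) (tp := tp) (tq := tq) hh hu' hu hd.symm hs hxy.symm hyp hyq hxp hxq hpq hy'
    (by rw [hy]; ring_nf) hx' hx hp' hp hq' hq
    (fun z h1 h2 h3 h4 => (ho z h2 h1 h3 h4).symm)
  rw [← H]
  exact Finset.sum_congr rfl fun z _ => abs_sub_comm _ _

/-! ### The rotation of a star -/

/-- The rotation of a star with `2h` arms, as a periodic sequence of leaves. -/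
structure Rot (h : ℕ) (Z : Type*) where
  at' : ℤ → Z
  inj : ∀ i j, at' i = at' j ↔ (2 * h : ℤ) ∣ i - j
  surj : ∀ z, ∃ i, at' i = z

/-- `F` are the potentials of the star with the rotation `R`, the selector values `u` and the
transports `θ` (the arms are numbered from `i` on). -/
def IsPot {h : ℕ} {Z : Type*} (R : Rot h Z) (u : ℤ → ℝ) (i : ℤ) (θ F : Z → ℝ) : Prop :=
  ∀ j, i ≤ j → j < i + 2 * h → F (R.at' j) = pot u j (θ (R.at' j))

theorem Rot.exists_lift {h : ℕ} (hh : 1 ≤ h) {Z : Type*} (R : Rot h Z) (i : ℤ) (z : Z) :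
    ∃ j, i ≤ j ∧ j < i + 2 * h ∧ R.at' j = z := by
  obtain ⟨k, hk⟩ := R.surj z
  refine ⟨i + (k - i) % (2 * h : ℤ), ?_, ?_, ?_⟩
  · have := Int.emod_nonneg (k - i) (b := (2 * h : ℤ)) (by omega)
    omega
  · have := Int.emod_lt_of_pos (k - i) (b := (2 * h : ℤ)) (by omega)
    omega
  · rw [← hk, R.inj]
    have h1 := Int.emod_add_mul_ediv (k - i) (2 * h : ℤ)
    refine ⟨-((k - i) / (2 * h)), ?_⟩
    rw [mul_neg]
    linarith

/-- **The half twist of the arms at the positions `i`, `i + 1`** (both signs): `R'` is the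
rotation with the two arms exchanged. -/
theorem sum_rule_rot {Z : Type*} [Fintype Z] {h : ℕ} (hh : 2 ≤ h) {u u' : ℤ → ℝ} {i : ℤ}
    (hu : SelSeq h u) (hu' : SelSeq h u') (hd : DiffAt h u u' i) {R R' : Rot h Z}
    (h0 : R'.at' i = R.at' (i + 1)) (h1 : R'.at' (i + 1) = R.at' i)
    (hr : ∀ j, i + 1 < j → j < i + 2 * h → R'.at' j = R.at' j)
    {θ θ' F F' : Z → ℝ} (hF : IsPot R u i θ F) (hF' : IsPot R' u' i θ' F')
    (hθ : ∀ j, i + 1 < j → j < i + 2 * h → θ' (R.at' j) = θ (R.at' j))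
    (hs : (u i ≤ u' i ∧ θ' (R.at' i) = θ (R.at' i) + 1 ∧ θ' (R.at' (i + 1)) = θ (R.at' (i + 1))) ∨
      (u' i ≤ u i ∧ θ' (R.at' i) = θ (R.at' i) ∧
        θ' (R.at' (i + 1)) = θ (R.at' (i + 1)) - 1)) :
    ∑ z, |F' z - F z| = 1 := by
  classical
  have ne : ∀ a b : ℤ, i ≤ a → a < b → b < i + 2 * h → R.at' a ≠ R.at' b := by
    intro a b ha hab hb he
    rw [R.inj] at he
    have he' : (2 * h : ℤ) ∣ b - a := by
      rw [← neg_sub]
      exact (Int.dvd_neg).2 he
    have h2 := Int.le_of_dvd (by omega : (0 : ℤ) < b - a) he'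
    omega
  have hx := hF i le_rfl (by omega)
  have hy := hF (i + 1) (by omega) (by omega)
  have hp := hF (i + h) (by omega) (by omega)
  have hq := hF (i + h + 1) (by omega) (by omega)
  have hy' := hF' i le_rfl (by omega)
  have hx' := hF' (i + 1) (by omega) (by omega)
  have hp' := hF' (i + h) (by omega) (by omega)
  have hq' := hF' (i + h + 1) (by omega) (by omega)
  rw [h0] at hy'
  rw [h1] at hx'
  rw [hr (i + h) (by omega) (by omega), hθ (i + h) (by omega) (by omega)] at hp'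
  rw [hr (i + h + 1) (by omega) (by omega), hθ (i + h + 1) (by omega) (by omega)] at hq'
  have ho : ∀ z, z ≠ R.at' i → z ≠ R.at' (i + 1) → z ≠ R.at' (i + h) → z ≠ R.at' (i + h + 1) →
      F' z = F z := by
    intro z z1 z2 z3 z4
    obtain ⟨j, j1, j2, rfl⟩ := R.exists_lift (by omega) i z
    have n1 : j ≠ i := by rintro rfl; exact z1 rfl
    have n2 : j ≠ i + 1 := by rintro rfl; exact z2 rfl
    have n3 : j ≠ i + h := by rintro rfl; exact z3 rfl
    have n4 : j ≠ i + h + 1 := by rintro rfl; exact z4 rfl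
    have hj := hF' j j1 j2
    rw [hr j (by omega) j2] at hj
    rw [hj, hF j j1 j2, hθ j (by omega) j2, pot, pot]
    have nd : ∀ k : ℤ, 0 < k → k < 2 * h → k ≠ h → ¬ (h : ℤ) ∣ k := by
      rintro k k1 k2 k3 ⟨c, hc⟩
      have hc1 : 0 < c := by
        by_contra hneg
        have : (h : ℤ) * c ≤ 0 := mul_nonpos_of_nonneg_of_nonpos (by omega) (by omega)
        omega
      have hc2 : c < 2 := by
        by_contra hneg
        have : (h : ℤ) * 2 ≤ h * c := mul_le_mul_of_nonneg_left (by omega) (by omega)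
        omega
      have : c = 1 := by omega
      subst this
      omega
    rw [hd (j - 1) (nd _ (by omega) (by omega) (by omega)),
      hd j (nd _ (by omega) (by omega) (by omega))]
  have nxy := ne i (i + 1) le_rfl (by omega) (by omega)
  have nxp := ne i (i + h) le_rfl (by omega) (by omega)
  have nxq := ne i (i + h + 1) le_rfl (by omega) (by omega)
  have nyp := ne (i + 1) (i + h) (by omega) (by omega) (by omega)
  have nyq := ne (i + 1) (i + h + 1) (by omega) (by omega) (by omega)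
  have npq := ne (i + h) (i + h + 1) (by omega) (by omega) (by omega)
  rcases hs with ⟨s1, s2, s3⟩ | ⟨s1, s2, s3⟩
  · rw [s2] at hx'
    rw [s3] at hy'
    exact sum_rule hh hu hu' hd s1 nxy nxp nxq nyp nyq npq hx hx' hy hy' hp hp' hq hq' ho
  · rw [s2] at hx'
    rw [s3] at hy'
    exact sum_rule' hh hu hu' hd s1 nxy nxp nxq nyp nyq npq hx hx' hy hy' hp hp' hq hq' ho

/-! ### Distance modulo `T`, summed over the leaves, and paths -/

/-- the sum over the leaves of the distances modulo `T` is at most `r` -/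
def Near {Z : Type*} [Fintype Z] (T : ℝ) (r : ℝ) (F G : Z → ℝ) : Prop :=
  ∃ q : Z → ℤ, ∑ z, |F z - G z - T * q z| ≤ r

namespace Near

variable {Z : Type*} [Fintype Z] {T r s : ℝ} {F G H : Z → ℝ}

theorem refl (T : ℝ) (F : Z → ℝ) : Near T 0 F F := ⟨fun _ => 0, by simp⟩

theorem symm (h : Near T r F G) : Near T r G F := by
  obtain ⟨q, hq⟩ := h
  refine ⟨fun z => - q z, le_trans (le_of_eq ?_) hq⟩
  apply Finset.sum_congr rfl
  intro z _
  rw [← abs_neg]
  congr 1
  push_cast
  ring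

theorem mono (h : Near T r F G) (hrs : r ≤ s) : Near T s F G := by
  obtain ⟨q, hq⟩ := h
  exact ⟨q, hq.trans hrs⟩

theorem trans (h : Near T r F G) (h' : Near T s G H) : Near T (r + s) F H := by
  obtain ⟨q, hq⟩ := h
  obtain ⟨q', hq'⟩ := h'
  refine ⟨fun z => q z + q' z, le_trans ?_ (add_le_add hq hq')⟩
  rw [← Finset.sum_add_distrib]
  apply Finset.sum_le_sum
  intro z _
  refine le_trans (le_of_eq ?_) (abs_add_le _ _)
  congr 1
  push_cast
  ring

theorem of_eq_mod (h : ∀ z, ∃ k : ℤ, F z = G z + T * k) : Near T 0 F G := by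
  choose k hk using h
  refine ⟨k, le_of_eq (Finset.sum_eq_zero fun z _ => ?_)⟩
  rw [hk z, add_sub_cancel_left, sub_self, abs_zero]

theorem of_sum (h : ∑ z, |F z - G z| ≤ r) : Near T r F G :=
  ⟨fun _ => 0, by simpa using h⟩

theorem congr_left (h : Near T r F G) (hk : ∀ z, ∃ k : ℤ, H z = F z + T * k) : Near T r H G := by
  simpa using (of_eq_mod hk).trans h

theorem congr_right (h : Near T r F G) (hk : ∀ z, ∃ k : ℤ, H z = G z + T * k) : Near T r F H := by
  simpa using h.trans (of_eq_mod hk).symm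

end Near

/-- **The path.** A star is `b 0`, every step is a half twist (cost `≤ 1`), the last one is the
antipode of `k`, whose potentials are those of `k` shifted by `T / 2`. -/
theorem near_path {Z : Type*} [Fintype Z] {T : ℝ} (N : ℕ) (F : ℕ → Z → ℝ)
    (hstep : ∀ n < N, Near T 1 (F n) (F (n + 1))) : Near T N (F 0) (F N) := by
  induction N with
  | zero => simpa using Near.refl T (F 0)
  | succ N ih =>
    have := (ih fun n hn => hstep n (by omega)).trans (hstep N (by omega))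
    simpa using this

/-- the conclusion in the form of `Bp.Machine` -/
theorem near_antipode {Z : Type*} [Fintype Z] {T r : ℝ} {F G G' : Z → ℝ} (h : Near T r F G')
    (hG : ∀ z, ∃ k : ℤ, G' z = G z + T / 2 + T * k) :
    ∃ q : Z → ℤ, ∑ z, |F z - G z - T / 2 - T * q z| ≤ r := by
  obtain ⟨q, hq⟩ := h
  choose k hk using hG
  refine ⟨fun z => q z + k z, le_trans (le_of_eq ?_) hq⟩
  apply Finset.sum_congr rfl
  intro z _
  rw [hk z]
  congr 1
  push_cast
  ring

/-- **The half twist from two triangles** (form of helper84, note 11743 (D)): only the potentials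
of four leaves change modulo `T`; the increments `a₁ + a₂ + a₃ = 1`, `b₁ + b₂ + b₃ = 1` of two
triangles. -/
theorem near_tri {Z : Type*} [Fintype Z] {T : ℝ} {F F' : Z → ℝ} {q x y p : Z}
    (hqx : q ≠ x) (hqy : q ≠ y) (hqp : q ≠ p) (hxy : x ≠ y) (hxp : x ≠ p) (hyp : y ≠ p)
    {a₁ a₂ a₃ b₁ b₂ b₃ : ℝ} (ha : a₁ + a₂ + a₃ ≤ 1) (hb : b₁ + b₂ + b₃ ≤ 1)
    (hq : ∃ k : ℤ, |F q - F' q - T * k| ≤ a₁ / 2)
    (hy : ∃ k : ℤ, |F y - F' y - T * k| ≤ (a₂ + b₂) / 2)
    (hx : ∃ k : ℤ, |F x - F' x - T * k| ≤ (a₃ + b₃) / 2)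
    (hp : ∃ k : ℤ, |F p - F' p - T * k| ≤ b₁ / 2)
    (ho : ∀ z, z ≠ q → z ≠ x → z ≠ y → z ≠ p → ∃ k : ℤ, F z = F' z + T * k) :
    Near T 1 F F' := by
  classical
  obtain ⟨kq, hq⟩ := hq
  obtain ⟨ky, hy⟩ := hy
  obtain ⟨kx, hx⟩ := hx
  obtain ⟨kp, hp⟩ := hp
  have ho' : ∀ z, ∃ k : ℤ, (z ≠ q → z ≠ x → z ≠ y → z ≠ p → F z = F' z + T * k) := by
    intro z
    by_cases h : z ≠ q ∧ z ≠ x ∧ z ≠ y ∧ z ≠ p
    · obtain ⟨k, hk⟩ := ho z h.1 h.2.1 h.2.2.1 h.2.2.2
      exact ⟨k, fun _ _ _ _ => hk⟩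
    · exact ⟨0, fun h1 h2 h3 h4 => absurd ⟨h1, h2, h3, h4⟩ h⟩
  choose k hk using ho'
  let r : Z → ℤ := fun z => if z = q then kq else if z = x then kx else if z = y then ky
    else if z = p then kp else k z
  refine ⟨r, ?_⟩
  have rq : r q = kq := if_pos rfl
  have rx : r x = kx := (if_neg hqx.symm).trans (if_pos rfl)
  have ry : r y = ky := (if_neg hqy.symm).trans ((if_neg hxy.symm).trans (if_pos rfl))
  have rp : r p = kp :=
    (if_neg hqp.symm).trans ((if_neg hxp.symm).trans ((if_neg hyp.symm).trans (if_pos rfl)))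
  have hsub : ∑ z ∈ ({q, x, y, p} : Finset Z), |F z - F' z - T * r z| =
      ∑ z, |F z - F' z - T * r z| := by
    apply Finset.sum_subset (Finset.subset_univ _)
    intro z _ hz
    simp only [Finset.mem_insert, Finset.mem_singleton, not_or] at hz
    obtain ⟨z1, z2, z3, z4⟩ := hz
    have rz : r z = k z :=
      (if_neg z1).trans ((if_neg z2).trans ((if_neg z3).trans (if_neg z4)))
    rw [rz, hk z z1 z2 z3 z4, add_sub_cancel_left, sub_self, abs_zero]
  rw [← hsub, Finset.sum_insert (by simp [hqx, hqy, hqp]),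
    Finset.sum_insert (by simp [hxy, hxp]), Finset.sum_insert (by simp [hyp]),
    Finset.sum_singleton, rq, rx, ry, rp]
  linarith

/-- **The half twist, two sets per leaf** (form of helper147): `u` is only `2h`-quasiperiodic, the
potential at the position `j` with the tip value `A` is `(u (j-1) + u (j-h) + h - 1)/2 - A`. The
arm `x` moves from position `i` to `i + 1` and is rerouted, `y` from `i + 1` to `i`. -/
theorem sum_rule_two {Z : Type*} [Fintype Z] {h : ℕ} (hh : 2 ≤ h) {u u' : ℤ → ℝ} {i : ℤ}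
    (hmono : ∀ j, u j ≤ u (j + 1)) (hlip : ∀ j, u (j + 1) ≤ u j + 1)
    (hmono' : ∀ j, u' j ≤ u' (j + 1)) (hlip' : ∀ j, u' (j + 1) ≤ u' j + 1)
    (hper : ∀ j, u (j + 2 * h) = u j + h) (hper' : ∀ j, u' (j + 2 * h) = u' j + h)
    (hd : DiffAt h u u' i) (hs : u i ≤ u' i) (hs2 : u (i - h) ≤ u' (i - h))
    {x y p q : Z} (hxy : x ≠ y) (hxp : x ≠ p) (hxq : x ≠ q) (hyp : y ≠ p)
    (hyq : y ≠ q) (hpq : p ≠ q) {F F' : Z → ℝ} {tx ty tp tq : ℝ}
    (hx : F x = (u (i - 1) + u (i - h) + (h - 1)) / 2 - tx)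
    (hx' : F' x = (u' i + u' (i + 1 - h) + (h - 1)) / 2 - (tx + 1))
    (hy : F y = (u i + u (i + 1 - h) + (h - 1)) / 2 - ty)
    (hy' : F' y = (u' (i - 1) + u' (i - h) + (h - 1)) / 2 - ty)
    (hp : F p = (u (i + h - 1) + u i + (h - 1)) / 2 - tp)
    (hp' : F' p = (u' (i + h - 1) + u' i + (h - 1)) / 2 - tp)
    (hq : F q = (u (i + h) + u (i + 1) + (h - 1)) / 2 - tq)
    (hq' : F' q = (u' (i + h) + u' (i + 1) + (h - 1)) / 2 - tq)
    (ho : ∀ z, z ≠ x → z ≠ y → z ≠ p → z ≠ q → F' z = F z) :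
    ∑ z, |F' z - F z| = 1 := by
  classical
  have hsub : ∑ z ∈ ({x, y, p, q} : Finset Z), |F' z - F z| = ∑ z, |F' z - F z| := by
    apply Finset.sum_subset (Finset.subset_univ _)
    intro z _ hz
    simp only [Finset.mem_insert, Finset.mem_singleton, not_or] at hz
    rw [ho z hz.1 hz.2.1 hz.2.2.1 hz.2.2.2, sub_self, abs_zero]
  rw [← hsub, Finset.sum_insert (by simp [hxy, hxp, hxq]),
    Finset.sum_insert (by simp [hyp, hyq]), Finset.sum_insert (by simp [hpq]),
    Finset.sum_singleton]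
  have nd : ∀ k c : ℤ, k = 1 + h * c ∨ k = -1 + h * c → ¬ (h : ℤ) ∣ k := by
    intro k c hk hdv
    have h1 : (h : ℤ) ∣ 1 := by
      rcases hk with hk | hk
      · exact (Int.dvd_add_left (Dvd.intro c rfl)).1 (hk ▸ hdv)
      · exact (Int.dvd_neg).1 ((Int.dvd_add_left (Dvd.intro c rfl)).1 (hk ▸ hdv))
    have := Int.le_of_dvd one_pos h1
    omega
  have e1 : u' (i - 1) = u (i - 1) := hd _ (nd _ 0 (Or.inr (by ring)))
  have e2 : u' (i + 1) = u (i + 1) := hd _ (nd _ 0 (Or.inl (by ring)))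
  have e3 : u' (i + h - 1) = u (i + h - 1) := hd _ (nd _ 1 (Or.inr (by ring)))
  have e4 : u' (i + 1 - h) = u (i + 1 - h) := hd _ (nd _ (-1) (Or.inl (by ring)))
  have m1 := hmono' i
  have m2 := hmono (i - 1)
  have m3 := hmono' (i - h)
  have l1 := hlip' (i - 1)
  have l2 := hlip (i - h)
  have r1 : i - (h : ℤ) + 1 = i + 1 - h := by ring
  rw [sub_add_cancel] at m2 l1
  rw [r1] at m3 l2
  have m4 := hmono i
  have p1 : u (i + h) = u (i - h) + h := by
    rw [← hper]; congr 1; ring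
  have p2 : u' (i + h) = u' (i - h) + h := by
    rw [← hper']; congr 1; ring
  have dx : F' x - F x = (u' i - u (i - 1) + (u (i + 1 - h) - u (i - h))) / 2 - 1 := by
    rw [hx, hx', e4]; ring
  have dy : F' y - F y = - ((u i - u (i - 1) + (u (i + 1 - h) - u' (i - h))) / 2) := by
    rw [hy, hy', e1]; ring
  have dp : F' p - F p = (u' i - u i) / 2 := by
    rw [hp, hp', e3]; ring
  have dq : F' q - F q = (u' (i - h) - u (i - h)) / 2 := by
    rw [hq, hq', e2, p1, p2]; ring
  rw [dx, dy, dp, dq]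
  rw [abs_of_nonpos (by linarith), abs_of_nonpos (by linarith), abs_of_nonneg (by linarith),
    abs_of_nonneg (by linarith)]
  ring

end Vale.Agent.P040.Even
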