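import Vale.Agent.P040.Even.Count

/-!
# Zarankiewicz's drawings (copied from the bundled files, separate namespace)
-/

set_option autoImplicit false

namespace Vale.Agent.P040.Even.Up

open Set

theorem seg_iff {u v : ℝ} (hu : u ≠ 0) (hv : v ≠ 0) (y : Plane) :
    y ∈ segment ℝ ((u⁻¹, 0) : Plane) (0, v⁻¹) ↔
      0 ≤ u * y.1 ∧ 0 ≤ v * y.2 ∧ u * y.1 + v * y.2 = 1 := by
  constructor
  · rintro ⟨a, b, ha, hb, hab, rfl⟩
    simp only [Prod.smul_mk, smul_eq_mul, mul_zero, Prod.mk_add_mk, add_zero, zero_add]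
    have e1 : u * (a * u⁻¹) = a := by field_simp
    have e2 : v * (b * v⁻¹) = b := by (clear * - hv; field_simp)
    rw [e1, e2]
    exact ⟨ha, hb, hab⟩
  · rintro ⟨h1, h2, h3⟩
    refine ⟨u * y.1, v * y.2, h1, h2, h3, ?_⟩
    apply Prod.ext
    · simp only [Prod.smul_mk, smul_eq_mul, mul_zero, Prod.mk_add_mk, add_zero]
      (clear * - hu; field_simp)
    · simp only [Prod.smul_mk, smul_eq_mul, mul_zero, Prod.mk_add_mk, zero_add]
      field_simp

theorem isArc_segment {p q : Plane} (h : p ≠ q) : IsArc (segment ℝ p q) p q := by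
  refine ⟨fun t => AffineMap.lineMap p q t, by (clear * -; fun_prop), ?_, by simp, by simp, ?_⟩
  · intro s _ t _ hst
    exact (AffineMap.lineMap_injective ℝ h) hst
  · rw [segment_eq_image_lineMap]

/-- Affine coordinates given by two lines. -/
noncomputable def twoLines (u v u' v' : ℝ) (hd : u * v' - u' * v ≠ 0) : Plane ≃ₜ Plane where
  toFun := fun y => (u' * y.1 + v' * y.2 - 1, u * y.1 + v * y.2 - 1)
  invFun := fun z => ((v' * (z.2 + 1) - v * (z.1 + 1)) / (u * v' - u' * v),
    (u * (z.1 + 1) - u' * (z.2 + 1)) / (u * v' - u' * v))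
  left_inv := by
    intro y
    apply Prod.ext
    · simp only
      rw [div_eq_iff hd]
      ring
    · simp only
      rw [div_eq_iff hd]
      ring
  right_inv := by
    intro z
    have h1 : u' * ((v' * (z.2 + 1) - v * (z.1 + 1)) / (u * v' - u' * v)) +
        v' * ((u * (z.1 + 1) - u' * (z.2 + 1)) / (u * v' - u' * v)) = z.1 + 1 := by
      rw [← mul_div_assoc, ← mul_div_assoc, ← add_div, div_eq_iff hd]
      ring
    have h2 : u * ((v' * (z.2 + 1) - v * (z.1 + 1)) / (u * v' - u' * v)) +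
        v * ((u * (z.1 + 1) - u' * (z.2 + 1)) / (u * v' - u' * v)) = z.2 + 1 := by
      rw [← mul_div_assoc, ← mul_div_assoc, ← add_div, div_eq_iff hd]
      ring
    apply Prod.ext
    · simp only
      rw [h1]
      ring
    · simp only
      rw [h2]
      ring
  continuous_toFun := by fun_prop
  continuous_invFun := by fun_prop

theorem crossAt_seg {u v u' v' : ℝ} (hu : u ≠ 0) (hv : v ≠ 0) (hu' : u' ≠ 0) (hv' : v' ≠ 0)
    (hd : u * v' - u' * v ≠ 0) {x : Plane} (h1 : 0 < u * x.1) (h2 : 0 < v * x.2)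
    (h3 : u * x.1 + v * x.2 = 1) (h1' : 0 < u' * x.1) (h2' : 0 < v' * x.2)
    (h3' : u' * x.1 + v' * x.2 = 1) :
    CrossAt (segment ℝ ((u⁻¹, 0) : Plane) (0, v⁻¹)) (segment ℝ ((u'⁻¹, 0) : Plane) (0, v'⁻¹)) x := by
  have hO : IsOpen {y : Plane | 0 < u * y.1 ∧ 0 < v * y.2 ∧ 0 < u' * y.1 ∧ 0 < v' * y.2} := by
    apply IsOpen.and (isOpen_lt continuous_const (by fun_prop))
    apply IsOpen.and (isOpen_lt continuous_const (by fun_prop))
    apply IsOpen.and (isOpen_lt continuous_const (by fun_prop))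
    exact isOpen_lt continuous_const (by fun_prop)
  refine ⟨(twoLines u v u' v' hd).toOpenPartialHomeomorph.restrOpen _ hO, ?_, ?_, ?_, ?_⟩
  · simp only [OpenPartialHomeomorph.restrOpen_source, Homeomorph.toOpenPartialHomeomorph_source,
      univ_inter]
    exact ⟨h1, h2, h1', h2'⟩
  · show (u' * x.1 + v' * x.2 - 1, u * x.1 + v * x.2 - 1) = ((0, 0) : Plane)
    rw [h3, h3', sub_self]
  · intro y hy
    simp only [OpenPartialHomeomorph.restrOpen_source, Homeomorph.toOpenPartialHomeomorph_source,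
      univ_inter] at hy
    obtain ⟨a1, a2, a3, a4⟩ := hy
    rw [seg_iff hu hv]
    show _ ↔ u * y.1 + v * y.2 - 1 = 0
    constructor
    · rintro ⟨-, -, h⟩
      rw [h, sub_self]
    · intro h
      exact ⟨a1.le, a2.le, by linarith only [h]⟩
  · intro y hy
    simp only [OpenPartialHomeomorph.restrOpen_source, Homeomorph.toOpenPartialHomeomorph_source,
      univ_inter] at hy
    obtain ⟨a1, a2, a3, a4⟩ := hy
    rw [seg_iff hu' hv']
    show _ ↔ u' * y.1 + v' * y.2 - 1 = 0
    constructor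
    · rintro ⟨-, -, h⟩
      rw [h, sub_self]
    · intro h
      exact ⟨a3.le, a4.le, by linarith only [h]⟩

variable {m n : ℕ}

/-- The vertices: one class on the first axis, the other one on the second axis. -/
noncomputable def zpos (u : Fin m → ℝ) (v : Fin n → ℝ) : Fin m ⊕ Fin n → Plane :=
  Sum.elim (fun i => ((u i)⁻¹, 0)) (fun j => (0, (v j)⁻¹))

/-- The edges are segments. -/
noncomputable def zarc (u : Fin m → ℝ) (v : Fin n → ℝ) (e : Sym2 (Fin m ⊕ Fin n)) : Set Plane :=
  {x | ∃ i j, e = s(Sum.inl i, Sum.inr j) ∧ x ∈ segment ℝ (((u i)⁻¹, 0) : Plane) (0, (v j)⁻¹)}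

theorem zarc_eq (u : Fin m → ℝ) (v : Fin n → ℝ) (i : Fin m) (j : Fin n) :
    zarc u v s(Sum.inl i, Sum.inr j) = segment ℝ (((u i)⁻¹, 0) : Plane) (0, (v j)⁻¹) := by
  ext x
  constructor
  · rintro ⟨i', j', h, hx⟩
    simp only [Sym2.eq_iff, Sum.inl.injEq, Sum.inr.injEq, reduceCtorEq, false_and, or_false] at h
    obtain ⟨rfl, rfl⟩ := h
    exact hx
  · intro hx
    exact ⟨i, j, rfl, hx⟩

theorem edge_cases {e : Sym2 (Fin m ⊕ Fin n)}
    (he : e ∈ (completeBipartiteGraph (Fin m) (Fin n)).edgeSet) :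
    ∃ i j, e = s(Sum.inl i, Sum.inr j) := by
  induction e using Sym2.ind with
  | _ a b =>
    rw [SimpleGraph.mem_edgeSet] at he
    rcases a with i | j <;> rcases b with i' | j'
    · simp at he
    · exact ⟨i, j', rfl⟩
    · exact ⟨i', j, Sym2.eq_swap⟩
    · simp at he

theorem edge_ne {i i' : Fin m} {j j' : Fin n}
    (h : (s(Sum.inl i, Sum.inr j) : Sym2 (Fin m ⊕ Fin n)) ≠ s(Sum.inl i', Sum.inr j')) :
    i ≠ i' ∨ j ≠ j' := by
  by_contra hc
  push Not at hc
  apply h
  rw [hc.1, hc.2]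

theorem interior {u : Fin m → ℝ} {v : Fin n → ℝ} (hu : ∀ i, u i ≠ 0) (hv : ∀ j, v j ≠ 0)
    {x : Plane} (hx : x ∉ range (zpos u v)) {i : Fin m} {j : Fin n}
    (h : x ∈ segment ℝ (((u i)⁻¹, 0) : Plane) (0, (v j)⁻¹)) :
    0 < u i * x.1 ∧ 0 < v j * x.2 ∧ u i * x.1 + v j * x.2 = 1 := by
  rw [seg_iff (hu i) (hv j)] at h
  obtain ⟨h1, h2, h3⟩ := h
  refine ⟨lt_of_le_of_ne h1 ?_, lt_of_le_of_ne h2 ?_, h3⟩
  · intro h0
    apply hx
    refine ⟨Sum.inr j, ?_⟩
    have e1 : x.1 = 0 := by
      rcases mul_eq_zero.1 h0.symm with h | h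
      · exact absurd h (hu i)
      · exact h
    rw [← h0, zero_add] at h3
    apply Prod.ext
    · simp [zpos, e1]
    · simp only [zpos, Sum.elim_inr]
      exact (eq_inv_of_mul_eq_one_right h3).symm
  · intro h0
    apply hx
    refine ⟨Sum.inl i, ?_⟩
    have e1 : x.2 = 0 := by
      rcases mul_eq_zero.1 h0.symm with h | h
      · exact absurd h (hv j)
      · exact h
    rw [← h0, add_zero] at h3
    apply Prod.ext
    · simp only [zpos, Sum.elim_inl]
      exact (eq_inv_of_mul_eq_one_right h3).symm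
    · simp [zpos, e1]

theorem two_edges {u : Fin m → ℝ} {v : Fin n → ℝ} (hui : Function.Injective u)
    (hvi : Function.Injective v) {x : Plane} {i i' : Fin m} {j j' : Fin n} (hne : i ≠ i' ∨ j ≠ j')
    (h : 0 < u i * x.1 ∧ 0 < v j * x.2 ∧ u i * x.1 + v j * x.2 = 1)
    (h' : 0 < u i' * x.1 ∧ 0 < v j' * x.2 ∧ u i' * x.1 + v j' * x.2 = 1) :
    i ≠ i' ∧ j ≠ j' ∧ u i * v j' - u i' * v j ≠ 0 ∧
      (u i * v j' - u i' * v j) * x.1 = v j' - v j ∧
      (u i * v j' - u i' * v j) * x.2 = u i - u i' := by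
  obtain ⟨a1, a2, a3⟩ := h
  obtain ⟨b1, b2, b3⟩ := h'
  have x1 : x.1 ≠ 0 := by rintro h; rw [h, mul_zero] at a1; exact lt_irrefl _ a1
  have x2 : x.2 ≠ 0 := by rintro h; rw [h, mul_zero] at a2; exact lt_irrefl _ a2
  have hi : i ≠ i' := by
    rintro rfl
    have : v j * x.2 = v j' * x.2 := by linarith
    exact (hne.resolve_left (fun h => h rfl)) (hvi (mul_right_cancel₀ x2 this))
  have hj : j ≠ j' := by
    rintro rfl
    have : u i * x.1 = u i' * x.1 := by linarith only [a3, b3]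
    exact hi (hui (mul_right_cancel₀ x1 this))
  have e1 : (u i * v j' - u i' * v j) * x.1 = v j' - v j := by
    linear_combination v j' * a3 - v j * b3
  have e2 : (u i * v j' - u i' * v j) * x.2 = u i - u i' := by
    linear_combination u i * b3 - u i' * a3
  refine ⟨hi, hj, ?_, e1, e2⟩
  intro h0
  rw [h0, zero_mul] at e1
  exact hj (hvi (sub_eq_zero.1 e1.symm)).symm

/-- Zarankiewicz's drawing of the complete bipartite graph. -/
noncomputable def zdraw (u : Fin m → ℝ) (v : Fin n → ℝ) (hui : Function.Injective u)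
    (hvi : Function.Injective v) (hu : ∀ i, u i ≠ 0) (hv : ∀ j, v j ≠ 0)
    (hdet : ∀ i i' i'' j j' j'', i ≠ i' → i ≠ i'' → i' ≠ i'' → j ≠ j' → j ≠ j'' → j' ≠ j'' →
      v j * (u i'' - u i') + v j' * (u i - u i'') + v j'' * (u i' - u i) ≠ 0) :
    Drawing (completeBipartiteGraph (Fin m) (Fin n)) where
  pos := zpos u v
  pos_inj := by
    rintro (i | j) (i' | j') h
    · simp only [zpos, Sum.elim_inl, Prod.mk.injEq, and_true, inv_inj] at h
      rw [hui h]
    · simp only [zpos, Sum.elim_inl, Sum.elim_inr, Prod.mk.injEq] at h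
      exact absurd h.1 (inv_ne_zero (hu i))
    · simp only [zpos, Sum.elim_inl, Sum.elim_inr, Prod.mk.injEq] at h
      exact absurd h.2 (inv_ne_zero (hv j))
    · simp only [zpos, Sum.elim_inr, Prod.mk.injEq, true_and, inv_inj] at h
      rw [hvi h]
  arc := zarc u v
  isArc := by
    have key : ∀ i j, IsArc (zarc u v s(Sum.inl i, Sum.inr j)) (zpos u v (Sum.inl i))
        (zpos u v (Sum.inr j)) := by
      intro i j
      rw [zarc_eq]
      apply isArc_segment
      intro h
      rw [Prod.mk.injEq] at h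
      exact inv_ne_zero (hu i) h.1
    rintro (i | j) (i' | j') h
    · simp at h
    · exact key i j'
    · rw [Sym2.eq_swap]
      exact (key i' j).symm
    · simp at h
  avoid := by
    intro e he w hw
    obtain ⟨i, j, rfl⟩ := edge_cases he
    rw [zarc_eq, seg_iff (hu i) (hv j)] at hw
    obtain ⟨-, -, h3⟩ := hw
    rcases w with i' | j'
    · simp only [zpos, Sum.elim_inl, mul_zero, add_zero] at h3
      have : u i = u i' := by
        have h4 := hu i'
        field_simp at h3
        exact h3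
      rw [hui this]
      simp
    · simp only [zpos, Sum.elim_inr, mul_zero, zero_add] at h3
      have : v j = v j' := by
        have h4 := hv j'
        field_simp at h3
        exact h3
      rw [hvi this]
      simp
  finite := by
    intro e he f hf hef
    obtain ⟨i, j, rfl⟩ := edge_cases he
    obtain ⟨i', j', rfl⟩ := edge_cases hf
    apply Set.Subsingleton.finite
    rintro x ⟨⟨hx1, hx2⟩, hx3, -⟩ y ⟨⟨hy1, hy2⟩, hy3, -⟩
    rw [zarc_eq] at hx1 hx3 hy1 hy3
    obtain ⟨-, -, hd, e1, e2⟩ := two_edges hui hvi (edge_ne hef) (interior hu hv hx2 hx1)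
      (interior hu hv hx2 hx3)
    obtain ⟨-, -, -, e3, e4⟩ := two_edges hui hvi (edge_ne hef) (interior hu hv hy2 hy1)
      (interior hu hv hy2 hy3)
    apply Prod.ext
    · exact mul_left_cancel₀ hd (e1.trans e3.symm)
    · exact mul_left_cancel₀ hd (e2.trans e4.symm)
  proper := by
    intro e he f hf hef x hx
    obtain ⟨i, j, rfl⟩ := edge_cases he
    obtain ⟨i', j', rfl⟩ := edge_cases hf
    obtain ⟨⟨hx1, hx2⟩, hx3, -⟩ := hx
    rw [zarc_eq] at hx1 hx3
    have a := interior hu hv hx2 hx1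
    have b := interior hu hv hx2 hx3
    obtain ⟨-, -, hd, -, -⟩ := two_edges hui hvi (edge_ne hef) a b
    rw [zarc_eq, zarc_eq]
    exact crossAt_seg (hu i) (hv j) (hu i') (hv j') hd a.1 a.2.1 a.2.2 b.1 b.2.1 b.2.2
  two := by
    intro e he f hf g hg hef heg hfg x hx h1 h2 h3
    obtain ⟨i, j, rfl⟩ := edge_cases he
    obtain ⟨i', j', rfl⟩ := edge_cases hf
    obtain ⟨i'', j'', rfl⟩ := edge_cases hg
    rw [zarc_eq] at h1 h2 h3
    have a := interior hu hv hx h1
    have b := interior hu hv hx h2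
    have c := interior hu hv hx h3
    obtain ⟨d1, d2, -, -, -⟩ := two_edges hui hvi (edge_ne hef) a b
    obtain ⟨d3, d4, -, -, -⟩ := two_edges hui hvi (edge_ne heg) a c
    obtain ⟨d5, d6, -, -, -⟩ := two_edges hui hvi (edge_ne hfg) b c
    apply hdet i i' i'' j j' j'' d1 d3 d5 d2 d4 d6
    have x2 : x.2 ≠ 0 := by
      rintro h
      have := a.2.1
      rw [h, mul_zero] at this
      exact lt_irrefl _ this
    apply mul_right_cancel₀ x2
    rw [zero_mul]
    linear_combination (u i'' - u i') * a.2.2 + (u i - u i'') * b.2.2 + (u i' - u i) * c.2.2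

theorem zdraw_rectilinear (u : Fin m → ℝ) (v : Fin n → ℝ) (hui : Function.Injective u)
    (hvi : Function.Injective v) (hu : ∀ i, u i ≠ 0) (hv : ∀ j, v j ≠ 0) (hdet) :
    (zdraw u v hui hvi hu hv hdet).Rectilinear := by
  rintro (i | j) (i' | j') h
  · simp at h
  · exact zarc_eq u v i j'
  · show zarc u v s(Sum.inr j, Sum.inl i') = _
    rw [Sym2.eq_swap, zarc_eq, segment_symm]
    rfl
  · simp at h

end Vale.Agent.P040.Even.Up

namespace Vale.Agent.P040.Even.Up

open Finset

/-- `d_r` -/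
def dz (r : ℕ) : ℕ := (r / 2) * ((r - 1) / 2)

/-- pairs -/
def prs (m : ℕ) : Finset (Fin m × Fin m) := univ.filter (fun p => p.1 < p.2)

theorem two_mul_prs (m : ℕ) (f : Fin m → Fin m → ℤ) (hf : ∀ i j, f i j = f j i) :
    2 * ∑ p ∈ prs m, f p.1 p.2 + ∑ i, f i i = ∑ i, ∑ j, f i j := by
  classical
  have h1 : ∑ i, ∑ j, f i j = ∑ p : Fin m × Fin m, f p.1 p.2 := by
    rw [← Finset.univ_product_univ, Finset.sum_product]
  have h2 : ∑ p : Fin m × Fin m, f p.1 p.2 =
      ∑ p ∈ univ.filter (fun p : Fin m × Fin m => p.1 < p.2), f p.1 p.2 +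
      (∑ p ∈ univ.filter (fun p : Fin m × Fin m => p.2 < p.1), f p.1 p.2 +
       ∑ p ∈ univ.filter (fun p : Fin m × Fin m => p.1 = p.2), f p.1 p.2) := by
    rw [← Finset.sum_filter_add_sum_filter_not univ (fun p : Fin m × Fin m => p.1 < p.2)]
    congr 1
    rw [← Finset.sum_filter_add_sum_filter_not
      (univ.filter (fun p : Fin m × Fin m => ¬ p.1 < p.2)) (fun p : Fin m × Fin m => p.2 < p.1)]
    congr 1
    · apply Finset.sum_congr _ (fun _ _ => rfl)
      ext p; simp only [mem_filter, mem_univ, true_and]; omega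
    · apply Finset.sum_congr _ (fun _ _ => rfl)
      ext p; simp only [mem_filter, mem_univ, true_and, Fin.lt_def, Fin.ext_iff]; omega
  have h3 : ∑ p ∈ univ.filter (fun p : Fin m × Fin m => p.2 < p.1), f p.1 p.2 =
      ∑ p ∈ prs m, f p.1 p.2 := by
    unfold prs
    apply Finset.sum_bij (fun p _ => (p.2, p.1))
    · intro p hp; simpa only [mem_filter, mem_univ, true_and] using hp
    · intro p _ q _ hpq
      simp only [Prod.mk.injEq] at hpq
      exact Prod.ext hpq.2 hpq.1
    · intro p hp; exact ⟨(p.2, p.1), by simpa only [mem_filter, mem_univ, true_and] using hp, rfl⟩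
    · intro p _; exact hf _ _
  have h4 : ∑ p ∈ univ.filter (fun p : Fin m × Fin m => p.1 = p.2), f p.1 p.2 = ∑ i, f i i := by
    symm
    apply Finset.sum_bij (fun i _ => (i, i))
    · intro i _; simp
    · intro i _ j _ hij; simpa using hij
    · rintro ⟨i, j⟩ hp
      simp only [mem_filter, mem_univ, true_and] at hp
      subst hp; exact ⟨i, mem_univ _, rfl⟩
    · intro i _; rfl
  rw [h1, h2, h3, h4]
  unfold prs
  ring

/-- The pairs in the same half. -/
def same (m : ℕ) : Finset (Fin m × Fin m) :=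
  (prs m).filter (fun p => (p.1.1 < m / 2 ↔ p.2.1 < m / 2))

theorem card_same (m : ℕ) : (same m).card = dz m := by
  classical
  have h := two_mul_prs m (fun i j => if (i.1 < m / 2 ↔ j.1 < m / 2) then 1 else 0)
    (fun i j => by simp only [iff_comm])
  have h1 : ∀ i j : Fin m, (if (i.1 < m / 2 ↔ j.1 < m / 2) then (1 : ℤ) else 0) =
      (if i.1 < m / 2 then 1 else 0) * (if j.1 < m / 2 then 1 else 0) +
      (1 - if i.1 < m / 2 then 1 else 0) * (1 - if j.1 < m / 2 then 1 else 0) := by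
    intro i j
    by_cases hi : i.1 < m / 2 <;> by_cases hj : j.1 < m / 2 <;> simp [hi, hj]
  have hT : ∑ i : Fin m, (if i.1 < m / 2 then (1 : ℤ) else 0) = (m / 2 : ℕ) := by
    rw [Finset.sum_boole]
    congr 1
    rw [Fin.card_filter_val_lt]
    omega
  have h2 : ∑ i : Fin m, ∑ j : Fin m, (if (i.1 < m / 2 ↔ j.1 < m / 2) then (1 : ℤ) else 0) =
      ((m / 2 : ℕ) : ℤ) * (m / 2 : ℕ) + (m - (m / 2 : ℕ)) * (m - (m / 2 : ℕ)) := by
    simp only [h1, Finset.sum_add_distrib, ← Finset.mul_sum, ← Finset.sum_mul,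
      Finset.sum_sub_distrib, Finset.sum_const, Finset.card_univ, Fintype.card_fin, nsmul_eq_mul,
      mul_one, hT]
  rw [h2] at h
  simp only [if_true, Finset.sum_const, Finset.card_univ, Fintype.card_fin, nsmul_eq_mul,
    mul_one] at h
  have h3 : ((same m).card : ℤ) =
      ∑ p ∈ prs m, if (p.1.1 < m / 2 ↔ p.2.1 < m / 2) then (1 : ℤ) else 0 := by
    rw [Finset.sum_boole]
    rfl
  rw [← h3] at h
  unfold dz
  generalize (same m).card = S at h ⊢
  obtain ⟨r, rfl | rfl⟩ := Nat.even_or_odd' m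
  · rcases Nat.eq_zero_or_pos r with rfl | hr
    · simp only [mul_zero, CharP.cast_eq_zero, add_zero, Nat.zero_div, sub_self, mul_eq_zero, OfNat.ofNat_ne_zero, Int.natCast_eq_zero, false_or, zero_tsub] at h ⊢
      omega
    · have e1 : 2 * r / 2 = r := by omega
      have e2 : (2 * r - 1) / 2 = r - 1 := by omega
      rw [e1] at h ⊢
      rw [e2]
      obtain ⟨k, rfl⟩ : ∃ k, r = k + 1 := ⟨r - 1, by omega⟩
      push_cast at h
      rw [Nat.add_sub_cancel]
      zify
      linarith only [h]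
  · have e1 : (2 * r + 1) / 2 = r := by omega
    have e2 : (2 * r + 1 - 1) / 2 = r := by (clear * -; omega)
    rw [e1] at h ⊢
    rw [e2]
    push_cast at h
    zify
    linarith only [h]

variable {m n : ℕ}

theorem same_of_sign {u : Fin m → ℝ} (hs : ∀ i, 0 < u i ↔ i.1 < m / 2) {x : ℝ} {i i' : Fin m}
    (h : 0 < u i * x) (h' : 0 < u i' * x) : (i.1 < m / 2 ↔ i'.1 < m / 2) := by
  rw [← hs, ← hs]
  constructor
  · intro hi
    have hx := (mul_pos_iff_of_pos_left hi).1 h
    exact (mul_pos_iff_of_pos_right hx).1 h'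
  · intro hi
    have hx := (mul_pos_iff_of_pos_left hi).1 h'
    exact (mul_pos_iff_of_pos_right hx).1 h

/-- The crossing point of two edges. -/
noncomputable def cpt (u : Fin m → ℝ) (v : Fin n → ℝ) (t : (Fin m × Fin m) × (Fin n × Fin n)) :
    Plane :=
  ((v t.2.1 - v t.2.2) / (u t.1.1 * v t.2.1 - u t.1.2 * v t.2.2),
    (u t.1.1 - u t.1.2) / (u t.1.1 * v t.2.1 - u t.1.2 * v t.2.2))

theorem crossings_le (u : Fin m → ℝ) (v : Fin n → ℝ) (hui : Function.Injective u)
    (hvi : Function.Injective v) (hu : ∀ i, u i ≠ 0) (hv : ∀ j, v j ≠ 0) (hdet)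
    (hum : StrictMono (fun i => |u i|)) (hvm : StrictMono (fun j => |v j|))
    (hus : ∀ i, 0 < u i ↔ i.1 < m / 2) (hvs : ∀ j, 0 < v j ↔ j.1 < n / 2) :
    (zdraw u v hui hvi hu hv hdet).crossings ≤ dz m * dz n := by
  classical
  have key : ∀ i j i' j' (x : Plane), i < i' →
      (0 < u i * x.1 ∧ 0 < v j * x.2 ∧ u i * x.1 + v j * x.2 = 1) →
      (0 < u i' * x.1 ∧ 0 < v j' * x.2 ∧ u i' * x.1 + v j' * x.2 = 1) → j ≠ j' →
      x ∈ cpt u v '' ((same m ×ˢ same n : Finset _) : Set ((Fin m × Fin m) × (Fin n × Fin n))) := by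
    intro i j i' j' x hii a b hjj
    obtain ⟨-, -, hd, e1, e2⟩ := two_edges hui hvi (Or.inl hii.ne) a b
    have x1 : 0 < |x.1| := by
      rw [abs_pos]
      intro h
      have := a.1
      rw [h, mul_zero] at this
      exact lt_irrefl _ this
    have x2 : 0 < |x.2| := by
      rw [abs_pos]
      intro h
      have := a.2.1
      rw [h, mul_zero] at this
      exact lt_irrefl _ this
    have g1 : u i * x.1 < u i' * x.1 := by
      rw [← abs_of_pos a.1, ← abs_of_pos b.1, abs_mul, abs_mul]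
      exact mul_lt_mul_of_pos_right (hum hii) x1
    have g2 : v j' * x.2 < v j * x.2 := by linarith only [a, b, g1]
    rw [← abs_of_pos a.2.1, ← abs_of_pos b.2.1, abs_mul, abs_mul] at g2
    have g3 := lt_of_mul_lt_mul_right g2 x2.le
    have g4 : j' < j := hvm.lt_iff_lt.1 g3
    refine ⟨((i, i'), (j', j)), ?_, ?_⟩
    · rw [mem_coe, mem_product]
      constructor
      · simp only [same, prs, mem_filter, mem_univ, true_and]
        exact ⟨hii, same_of_sign hus a.1 b.1⟩
      · simp only [same, prs, mem_filter, mem_univ, true_and]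
        exact ⟨g4, same_of_sign hvs b.2.1 a.2.1⟩
    · unfold cpt
      apply Prod.ext
      · simp only
        rw [div_eq_iff hd, mul_comm, e1]
      · simp only
        rw [div_eq_iff hd, mul_comm, e2]
  have hsub : (zdraw u v hui hvi hu hv hdet).crossingSet ⊆
      cpt u v '' ((same m ×ˢ same n : Finset _) : Set ((Fin m × Fin m) × (Fin n × Fin n))) := by
    rintro x ⟨hx, e, he, f, hf, hef, h1, h2⟩
    obtain ⟨i, j, rfl⟩ := edge_cases he
    obtain ⟨i', j', rfl⟩ := edge_cases hf
    have h1' : x ∈ segment ℝ (((u i)⁻¹, 0) : Plane) (0, (v j)⁻¹) := by rw [← zarc_eq]; exact h1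
    have h2' : x ∈ segment ℝ (((u i')⁻¹, 0) : Plane) (0, (v j')⁻¹) := by rw [← zarc_eq]; exact h2
    have a := interior hu hv hx h1'
    have b := interior hu hv hx h2'
    obtain ⟨hi, hj, -, -, -⟩ := two_edges hui hvi (edge_ne hef) a b
    rcases lt_or_gt_of_ne hi with h | h
    · exact key i j i' j' x h a b hj
    · exact key i' j' i j x h b a hj.symm
  unfold Drawing.crossings
  calc _ ≤ (cpt u v '' ((same m ×ˢ same n : Finset _) :
        Set ((Fin m × Fin m) × (Fin n × Fin n)))).ncard :=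
        Set.ncard_le_ncard hsub ((Finset.finite_toSet _).image _)
    _ ≤ ((same m ×ˢ same n : Finset _) : Set ((Fin m × Fin m) × (Fin n × Fin n))).ncard :=
        Set.ncard_image_le (Finset.finite_toSet _)
    _ = dz m * dz n := by
        rw [Set.ncard_coe_finset, card_product, card_same, card_same]

/-- The reciprocals of the coordinates. -/
noncomputable def uu (m : ℕ) (i : Fin m) : ℝ := if i.1 < m / 2 then (i.1 + 1 : ℝ) else -(i.1 + 1 : ℝ)

noncomputable def vv (K : ℝ) (n : ℕ) (j : Fin n) : ℝ :=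
  if j.1 < n / 2 then K ^ (j.1 + 1) else - K ^ (j.1 + 1)

theorem abs_uu (i : Fin m) : |uu m i| = i.1 + 1 := by
  unfold uu
  split_ifs
  · exact abs_of_pos (by positivity)
  · rw [abs_neg]; exact abs_of_pos (by positivity)

theorem abs_vv {K : ℝ} (hK : 0 < K) (j : Fin n) : |vv K n j| = K ^ (j.1 + 1) := by
  unfold vv
  split_ifs
  · exact abs_of_pos (by positivity)
  · rw [abs_neg]; exact abs_of_pos (by positivity)

theorem uu_mono (m : ℕ) : StrictMono (fun i => |uu m i|) := by
  intro i j hij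
  simp only [abs_uu]
  have : (i.1 : ℝ) < j.1 := by exact_mod_cast hij
  linarith

theorem vv_mono {K : ℝ} (hK : 1 < K) (n : ℕ) : StrictMono (fun j => |vv K n j|) := by
  intro i j hij
  simp only [abs_vv (by linarith : 0 < K)]
  apply pow_lt_pow_right₀ hK
  have : i.1 < j.1 := hij
  omega

theorem inj_of_abs {k : ℕ} {w : Fin k → ℝ} (h : StrictMono (fun i => |w i|)) :
    Function.Injective w := by
  intro i j hij
  apply h.injective
  simp only [hij]

theorem uu_diff (i j : Fin m) (h : i ≠ j) : 1 ≤ |uu m i - uu m j| ∧ |uu m i - uu m j| ≤ 2 * m := by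
  have hi := i.2
  have hj := j.2
  have hne : i.1 ≠ j.1 := fun h' => h (Fin.ext h')
  constructor
  · have h1 := abs_abs_sub_abs_le (uu m i) (uu m j)
    rw [abs_uu, abs_uu] at h1
    refine le_trans ?_ h1
    rcases lt_or_gt_of_ne hne with h2 | h2
    · have : (i.1 : ℝ) + 1 ≤ j.1 := by exact_mod_cast h2
      rw [abs_sub_comm, abs_of_nonneg (by (clear * - this; linarith))]
      linarith only [this]
    · have : (j.1 : ℝ) + 1 ≤ i.1 := by exact_mod_cast h2
      rw [abs_of_nonneg (by linarith only [this])]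
      linarith only [this]
  · have h1 := abs_sub (uu m i) (uu m j)
    rw [abs_uu, abs_uu] at h1
    have : (i.1 : ℝ) + 1 ≤ m := by exact_mod_cast hi
    have : (j.1 : ℝ) + 1 ≤ m := by exact_mod_cast hj
    linarith

theorem vv_dom {K : ℝ} {a b c : ℝ} {N : ℝ} (hN : 0 ≤ N) (hK : 2 * N < K) (hK1 : 1 ≤ K)
    {p q r : Fin n} (hpq : q < p) (hpr : r < p) (ha : 1 ≤ |a|) (hb : |b| ≤ N) (hc : |c| ≤ N) :
    vv K n p * a + vv K n q * b + vv K n r * c ≠ 0 := by
  intro h0
  have hK0 : 0 < K := by linarith only [hN, hK]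
  have h1 : |vv K n p * a| = |vv K n q * b + vv K n r * c| := by
    rw [show vv K n p * a = -(vv K n q * b + vv K n r * c) by linarith only [h0], abs_neg]
  have h2 := abs_add_le (vv K n q * b) (vv K n r * c)
  rw [abs_mul, abs_mul, abs_vv hK0, abs_vv hK0] at h2
  rw [abs_mul, abs_vv hK0] at h1
  have hq : K ^ (q.1 + 1) ≤ K ^ p.1 := pow_le_pow_right₀ hK1 hpq
  have hr : K ^ (r.1 + 1) ≤ K ^ p.1 := pow_le_pow_right₀ hK1 hpr
  have hp : 0 < K ^ p.1 := by positivity
  have h3 : K ^ (q.1 + 1) * |b| ≤ K ^ p.1 * N := by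
    apply mul_le_mul hq hb (abs_nonneg _) hp.le
  have h4 : K ^ (r.1 + 1) * |c| ≤ K ^ p.1 * N := by
    apply mul_le_mul hr hc (abs_nonneg _) hp.le
  have h5 : K ^ (p.1 + 1) ≤ K ^ (p.1 + 1) * |a| := le_mul_of_one_le_right (by positivity) ha
  have h6 : K ^ (p.1 + 1) = K ^ p.1 * K := pow_succ _ _
  nlinarith only [h1, h2, h3, h4, h5, h6, hK, hp]

/-- There is a rectilinear drawing with few crossings. -/
theorem exists_drawing (m n : ℕ) : ∃ D : Drawing (completeBipartiteGraph (Fin m) (Fin n)),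
    D.Rectilinear ∧ D.crossings ≤ dz m * dz n ∧ (∀ i, (D.pos (Sum.inl i)).1 ≠ 0) ∧
      (∀ j, (D.pos (Sum.inr j)).1 = 0) ∧
      (∀ a b b', b ≠ b' → ∀ p ∈ D.arc s(Sum.inl a, Sum.inr b),
        p ∈ D.arc s(Sum.inl a, Sum.inr b') → p = D.pos (Sum.inl a)) := by
  set K : ℝ := 4 * m + 2 with hKdef
  have hm0 : (0 : ℝ) ≤ m := Nat.cast_nonneg m
  have hK1 : 1 < K := by linarith
  have hK0 : 0 < K := by linarith
  have hdet : ∀ (i i' i'' : Fin m) (j j' j'' : Fin n), i ≠ i' → i ≠ i'' → i' ≠ i'' → j ≠ j' →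
      j ≠ j'' → j' ≠ j'' → vv K n j * (uu m i'' - uu m i') + vv K n j' * (uu m i - uu m i'') +
        vv K n j'' * (uu m i' - uu m i) ≠ 0 := by
    intro i i' i'' j j' j'' a b c d e f
    have hN : (0 : ℝ) ≤ 2 * m := by linarith
    have hK : 2 * (2 * (m : ℝ)) < K := by linarith only []
    have A := uu_diff i'' i' c.symm
    have B := uu_diff i i'' b
    have C := uu_diff i' i a.symm
    rcases lt_or_gt_of_ne d with h1 | h1
    · rcases lt_or_gt_of_ne f with h2 | h2
      · -- `j'' ` is the largest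
        have := vv_dom (n := n) hN hK hK1.le (h1.trans h2) h2 C.1 A.2 B.2
        intro h
        apply this
        linarith only [h]
      · have := vv_dom (n := n) hN hK hK1.le h1 h2 B.1 A.2 C.2
        intro h
        apply this
        (clear * - h; linarith)
    · rcases lt_or_gt_of_ne e with h2 | h2
      · have := vv_dom (n := n) hN hK hK1.le h2 (h1.trans h2) C.1 A.2 B.2
        intro h
        apply this
        linarith only [h]
      · have := vv_dom (n := n) hN hK hK1.le h1 h2 A.1 B.2 C.2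
        intro h
        apply this
        linarith only [h]
  have hum := uu_mono m
  have hvm := vv_mono hK1 n
  have hu0 : ∀ i, uu m i ≠ 0 := by
    intro i
    rw [← abs_pos, abs_uu]
    (clear * -; positivity)
  have hv0 : ∀ j, vv K n j ≠ 0 := by
    intro i
    rw [← abs_pos, abs_vv hK0]
    (clear * -; positivity)
  refine ⟨zdraw (uu m) (vv K n) (inj_of_abs hum) (inj_of_abs hvm) hu0 hv0 hdet,
    zdraw_rectilinear _ _ _ _ _ _ _, crossings_le _ _ _ _ _ _ _ hum hvm ?_ ?_,
    fun i => inv_ne_zero (hu0 i), fun j => rfl, ?_⟩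
  · intro i
    unfold uu
    split_ifs with h
    · exact ⟨fun _ => h, fun _ => by (clear * -; positivity)⟩
    · refine ⟨fun h' => ?_, fun h' => absurd h' h⟩
      have : (0 : ℝ) < i.1 + 1 := by (clear * -; positivity)
      linarith only [h']
  · intro i
    unfold vv
    split_ifs with h
    · exact ⟨fun _ => h, fun _ => by (clear * -; positivity)⟩
    · refine ⟨fun h' => ?_, fun h' => absurd h' h⟩
      have : (0 : ℝ) < K ^ (i.1 + 1) := by (clear * -; positivity)
      linarith only [h', this]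
  · intro a b b' hbb p hp hp'
    by_cases hr : p ∈ Set.range (zpos (uu m) (vv K n))
    · obtain ⟨w, rfl⟩ := hr
      have h1 := (zdraw (uu m) (vv K n) (inj_of_abs hum) (inj_of_abs hvm) hu0 hv0 hdet).avoid
        s(Sum.inl a, Sum.inr b) (by simp) w hp
      have h2 := (zdraw (uu m) (vv K n) (inj_of_abs hum) (inj_of_abs hvm) hu0 hv0 hdet).avoid
        s(Sum.inl a, Sum.inr b') (by simp) w hp'
      rw [Sym2.mem_iff] at h1 h2
      rcases h1 with rfl | rfl
      · rfl
      · rcases h2 with h2 | h2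
        · exact absurd h2 (by simp)
        · rw [Sum.inr.injEq] at h2
          exact absurd h2 hbb
    · have e1 : p ∈ segment ℝ (((uu m a)⁻¹, 0) : Plane) (0, (vv K n b)⁻¹) := by
        rw [← zarc_eq]; exact hp
      have e2 : p ∈ segment ℝ (((uu m a)⁻¹, 0) : Plane) (0, (vv K n b')⁻¹) := by
        rw [← zarc_eq]; exact hp'
      exact absurd rfl (two_edges (inj_of_abs hum) (inj_of_abs hvm) (Or.inr hbb)
        (interior hu0 hv0 hr e1) (interior hu0 hv0 hr e2)).1

end Vale.Agent.P040.Even.Up
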