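import Vale.Agent.P040.Even.Complete
import Vale.Agent.P040.Even.Upper

/-!
# Final forms (helper377)
-/

set_option autoImplicit false

namespace Vale.Agent.P040.Even

open Set Filter Topology

/-- the upper bound -/
theorem exists_zar (m n : ℕ) : ∃ D : Drawing (K m n), D.crossings ≤ zar m n := by
  obtain ⟨D, -, h, -⟩ := Up.exists_drawing m n
  exact ⟨D, h⟩

/-- the crossing number -/
noncomputable def cr {V : Type} (G : SimpleGraph V) : ℕ := sInf {c | ∃ D : Drawing G, D.crossings = c}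

theorem cr_le {V : Type} {G : SimpleGraph V} (D : Drawing G) : cr G ≤ D.crossings :=
  Nat.sInf_le ⟨D, rfl⟩

theorem exists_cr {m n : ℕ} : ∃ D : Drawing (K m n), D.crossings = cr (K m n) := by
  obtain ⟨D, -⟩ := exists_zar m n
  have : ({c | ∃ D : Drawing (K m n), D.crossings = c} : Set ℕ).Nonempty := ⟨_, D, rfl⟩
  exact Nat.sInf_mem this

theorem cr_le_zar (m n : ℕ) : cr (K m n) ≤ zar m n := by
  obtain ⟨D, h⟩ := exists_zar m n
  exact (cr_le D).trans h

/-- **Zarankiewicz's conjecture** when one of the parameters is even. -/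
theorem least (hE : EvenB) {m n : ℕ} (h : Even m ∨ Even n) :
    IsLeast {c | ∃ D : Drawing (K m n), D.crossings = c} (zar m n) := by
  obtain ⟨D, hD⟩ := exists_zar m n
  refine ⟨⟨D, le_antisymm hD (even_or hE h D)⟩, ?_⟩
  rintro _ ⟨D', rfl⟩
  exact even_or hE h D'

theorem cr_eq (hE : EvenB) {m n : ℕ} (h : Even m ∨ Even n) : cr (K m n) = zar m n :=
  (least hE h).csInf_eq

/-- asymptotically exact, uniformly -/
theorem cr_bounds (hE : EvenB) (ε : ℝ) (hε : 0 < ε) : ∃ N : ℕ, ∀ m n : ℕ, N ≤ max m n →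
    (1 - ε) * (zar m n : ℝ) ≤ cr (K m n) ∧ (cr (K m n) : ℝ) ≤ zar m n := by
  obtain ⟨N, hN⟩ := zar_lim hE ε hε
  refine ⟨N, fun m n hmn => ⟨?_, by exact_mod_cast cr_le_zar m n⟩⟩
  obtain ⟨D, hD⟩ := @exists_cr m n
  rw [← hD]
  exact hN m n hmn D

theorem zar_pos {n : ℕ} (hn : 3 ≤ n) : 0 < zar n n := by
  unfold zar
  have h1 : 0 < n / 2 := by omega
  have h2 : 0 < (n - 1) / 2 := by omega
  positivity

theorem cr_tendsto (hE : EvenB) :
    Tendsto (fun n : ℕ => (cr (K n n) : ℝ) / (zar n n : ℝ)) atTop (𝓝 1) := by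
  rw [Metric.tendsto_atTop]
  intro ε hε
  obtain ⟨N, hN⟩ := cr_bounds hE (ε / 2) (by linarith)
  refine ⟨max N 3, fun n hn => ?_⟩
  have h3 : 3 ≤ n := le_trans (le_max_right _ _) hn
  obtain ⟨h1, h2⟩ := hN n n (by rw [max_self]; exact le_trans (le_max_left _ _) hn)
  have hz : (0:ℝ) < zar n n := by exact_mod_cast zar_pos h3
  rw [Real.dist_eq, abs_lt]
  constructor
  · have : 1 - ε / 2 ≤ (cr (K n n) : ℝ) / zar n n := by rwa [le_div_iff₀ hz]
    linarith
  · have : (cr (K n n) : ℝ) / zar n n ≤ 1 := by rwa [div_le_one hz]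
    linarith

/-- everything -/
theorem main (hE : EvenB) :
    (∀ m n : ℕ, Even m ∨ Even n → IsLeast {c | ∃ D : Drawing (K m n), D.crossings = c} (zar m n)) ∧
    (∀ m n : ℕ, 3 ≤ m → ∀ D : Drawing (K m n),
      (1 - 2 / (((m : ℝ) - 1) * (m - 2))) * (zar m n : ℝ) ≤ D.crossings) ∧
    (∀ ε : ℝ, 0 < ε → ∃ N : ℕ, ∀ m n : ℕ, N ≤ max m n →
      ∀ D : Drawing (K m n), (1 - ε) * (zar m n : ℝ) ≤ D.crossings) ∧
    (∀ ε : ℝ, 0 < ε → ∃ N : ℕ, ∀ n : ℕ, N ≤ n →
      ∀ D : Drawing (⊤ : SimpleGraph (Fin n)), (1 - ε) * (hill n : ℝ) ≤ D.crossings) :=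
  ⟨fun _ _ h => least hE h, fun _ _ hm D => all_bound hE hm D, zar_lim hE, complete_lim hE⟩

end Vale.Agent.P040.Even
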